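import Vale.Agent.P281Z.En.Sk
import Vale.Agent.P281Z.Lf.Bert

/-!
# P281Z, block END: the theorem of Bertini
-/

namespace Vale.Agent.P281Z.En

theorem bert : BERT := fun _ V _ _ _ _ => Lf.bertini V

end Vale.Agent.P281Z.En
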