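import Vale.Agent.P281Z.En.Kp
import Vale.Agent.P281Z.Mf.Adj
import Vale.Agent.P277Z.Slc.Div

/-!
# P281, block END: bigness is an open condition; restriction to fibres
-/

open scoped Manifold ContDiff Topology
open Set Filter
open Vale.Agent.P272.K Vale.Agent.P285.H281.FD
open Vale.Agent.P277Z (Hol)
open Vale.Agent.P277Z.Slc (lin Ind LEq Snc IsDiv isLB_can)
open Vale.Agent.P277.HD (pull)

noncomputable section

namespace Vale.Agent.P281Z.En

theorem bigp_of (C : Cal) (hK : KOD) : BIGP := by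
  intro n V L L' κ _ G c hV hL hL' hG hc h
  classical
  have g := gd_id hG
  choose ρ hρ using hc
  obtain ⟨N, hN, z, hz⟩ : ∃ N : ℕ, 0 < N ∧ ∃ z : κ → ℤ, ∀ l, (N : ℝ) * c l = z l := by
    refine ⟨∏ l, (ρ l).den, Finset.prod_pos fun l _ => (ρ l).pos,
      fun l => (∏ l' ∈ Finset.univ.erase l, (ρ l').den : ℕ) * (ρ l).num, fun l => ?_⟩
    have k : (((ρ l).den : ℝ)) * ρ l = (ρ l).num := by exact_mod_cast Rat.den_mul_eq_num (ρ l)
    rw [← Finset.prod_erase_mul _ _ (Finset.mem_univ l), hρ, Nat.cast_mul, mul_assoc, k]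
    simp only [Int.cast_mul, Int.cast_natCast]
  choose O σ hO using fun l => P277Z.Slc.stDiv n V.X (G l) fun x => (hG x).elim fun ζ k => ⟨ζ l, k.1 l⟩
  have dv : ∀ z : κ → ℤ, KP n id (∑ l, z l • cls n (O l)) G (fun l => -(z l : ℝ)) 0 := fun z =>
    (kp_dv C g inferInstance id hO z).cng g rfl fun l => by
      rw [Finset.sum_filter]; simp
  obtain ⟨L₀, a1, a2, a3⟩ := ((((KP.of hL h).pow C g hN).add C g hV (dv z)).cng g rfl
    (c' := fun _ => 0) fun l => by rw [hz, add_neg_cancel])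
  obtain ⟨m, hm, a4⟩ := (C.hol n n V V κ id G g L₀ n a1).1 a3
  have b := lb_mul hL' (lb_lin (fun l => (hO l).lb) fun _ => -1)
  obtain ⟨j, a5⟩ := hK n V _ _ hV (lb_pow a1 m) b a4
  refine ⟨j * m * N + 1, fun j' hj => ?_⟩
  obtain ⟨e, rfl⟩ := Nat.exists_eq_add_of_le hj
  refine (((((KP.of hL h).pow C g (k := e + 1) e.succ_pos).add C g hV
    (kp_sec C g (lb_mul (lb_pow (lb_pow a1 m) j) b) a5)).add C g hV
      (dv fun l => 1 - j * m * z l)).cng g rfl fun l => ?_).to C g (lb_mul (lb_pow hL _) hL') ?_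
  · push_cast
    rw [← hz]
    exact le_of_eq (by ring)
  · rw [cls_mul (lb_pow (lb_pow a1 m) j) b, cls_pow (lb_pow a1 m), cls_pow a1, a2,
      cls_mul hL' (lb_lin (fun l => (hO l).lb) _), cls_lin fun l => (hO l).lb,
      cls_mul (lb_pow hL _) hL', cls_pow hL]
    have e1 : ∑ l, (1 - j * m * z l) • cls n (O l) =
        -∑ l, (-1 : ℤ) • cls n (O l) - (j * m) • ∑ l, z l • cls n (O l) := by
      rw [Finset.smul_sum, ← Finset.sum_neg_distrib, ← Finset.sum_sub_distrib]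
      exact Finset.sum_congr rfl fun l _ => by module
    rw [e1]
    module

theorem restr_of (hG : GEN) : RESTR := by
  intro w r W Z γ κ _ G c hγ hW hs hS ⟨m, hm, s, h1, x₀, h2, a, h3, h4, _⟩
  obtain ⟨Q, q1, q2⟩ := hG w r W Z γ κ G hγ hS
  have lK := lb_pow (isLB_can (n := w) (W := W.X)) m
  have hN : ∀ᶠ x in 𝓝 x₀, x ∈ off G ∧ x ∈ ((Bd.can w W.X).pow m).U a ∧ s 0 a x ≠ 0 :=
    Eventually.and ((snc_open_off hS).mem_nhds h2) ((lb_near lK h3).and
      (((h1 0).hol a x₀ trivial h3 h2).continuousAt.eventually_ne h4))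
  obtain ⟨x, k1, k2⟩ := (((q1.pre_surj hγ hs).freq x₀).and_eventually hN.eventually_nhds).exists
  have sb := (q2 _ k1).sbm hγ hS rfl
  obtain ⟨d, hd⟩ := Nat.exists_eq_add_of_le sb.le
  refine ⟨d, fun hc => ?_⟩
  obtain ⟨z, ⟨y, b1, rfl⟩, b2⟩ := (hc.union q1.neg).ex
    (sb.map_nhds (hγ.at x) ▸ image_mem_map k2 : γ '' _ ∈ 𝓝 (γ x))
  rw [mem_union, not_or] at b2
  have sy : ∀ x, γ x = γ y → Sbm w r γ x := fun _ => (q2 _ b2.2).sbm hγ hS
  obtain ⟨F, i, hi⟩ := fib_emb hd hγ sy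
  obtain ⟨u, rfl⟩ := hi.ex (show y ∈ γ ⁻¹' {γ y} from rfl)
  obtain ⟨t, ht⟩ := adj_iso hi hγ sy
  have lF := lb_pow (isLB_can (n := d) (W := F.X)) m
  have lP := hi.hol.lb lK
  have hr : LRel d ((Bd.can d F.X).pow m) (pull i ((Bd.can w W.X).pow m)) fun a b x => t a b x ^ m :=
    ⟨fun a b x k k' => (ht.hol a b x k k').pow m, fun a b x k k' => pow_ne_zero m (ht.ne a b x k k'),
      fun a a' b b' x k1 k2 k3 k4 => (mul_pow _ _ _).symm.trans
        ((congrArg (· ^ m) (ht.chg a a' b b' x k1 k2 k3 k4)).trans (mul_pow _ _ _))⟩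
  obtain ⟨e, he⟩ := lF.cover u
  exact b2.1 ⟨F, i, hi, m, hm, fun _ => LRel.map lP _ fun a x => s 0 a (i x), fun _ =>
    hr.secP lF lP isOpen_univ ((snc_open_off hS).preimage hi.hol.cont) ((h1 0).comp hi.hol), u,
    b1.1, e, he, hr.nz lP (s := fun a x => s 0 a (i x)) (x := u)
      (((h1 0).nz_iff lK trivial b1.1 b1.2.1).2 b1.2.2) e he,
    fun b => b.elim0, fun _ _ => linearIndependent_empty_type⟩

theorem trv : TRV := fun _ _ _ _ _ _ _ _ _ _ _ _ _ hf hS h hi =>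
  ⟨h.snc hf hS hi, fun _ _ _ k => h.leq1 hf hS hi k⟩

end Vale.Agent.P281Z.En
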