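import Vale.Agent.P281Z.En.Sk
import Vale.Agent.P281Z.Sc.Pic
import Vale.Agent.P281Z.Mf.An

/-!
# P281, block END: isomorphic bundles, multiples, sums, monomials
-/

open scoped Manifold ContDiff Topology
open Set Filter
open Vale.Agent.P272.K Vale.Agent.P285.H281.FD
open Vale.Agent.P277Z (Hol Nz)
open Vale.Agent.P277Z.Slc (lin Ind LEq Snc IsDiv)
open Vale.Agent.P277.HD (pull)

set_option linter.unusedSectionVars false

noncomputable section

namespace Vale.Agent.P281Z.En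

namespace Kap1

variable {n p : ℕ} {X Y : Type} [TopologicalSpace X] [ChartedSpace (Cm n) X]
  [IsManifold 𝓘(ℂ, Cm n) ω X] [TopologicalSpace Y] [ChartedSpace (Cm p) Y]
  [IsManifold 𝓘(ℂ, Cm p) ω Y] {κ : Type} [Fintype κ] {i : X → Y} {G : κ → Set Y}
  {L L' : Bd X} {c c' : κ → ℝ} {j : ℕ}

theorem pow_pow (L : Bd X) (k m : ℕ) : (L.pow k).pow m = L.pow (k * m) :=
  congrArg (Bd.mk L.ι L.U) (funext fun _ => funext fun _ => funext fun _ => (pow_mul _ _ _).symm)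

theorem pow_one' (L : Bd X) : L.pow 1 = L :=
  congrArg (Bd.mk L.ι L.U) (funext fun _ => funext fun _ => funext fun _ => pow_one _)

theorem mul_pow' (L L' : Bd X) (m : ℕ) : (L.mul L').pow m = (L.pow m).mul (L'.pow m) :=
  congrArg (Bd.mk (L.mul L').ι (L.mul L').U)
    (funext fun _ => funext fun _ => funext fun _ => mul_pow _ _ _)

theorem opn (h : Gd n p i G) : IsOpen (i ⁻¹' off G) := (snc_open_off h.snc).preimage h.hol.cont

theorem thin (h : Gd n p i G) : Thin n (i ⁻¹' off G)ᶜ :=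
  ⟨(snc_thin_off h.snc).1.pre h.hol, by rw [compl_compl]; exact h.dense⟩

variable (n p) in
/-- sections of `L + i^* (∑ c l • G l)` whose ratios have rank `j` -/
def Kp (i : X → Y) (L : Bd X) (G : κ → Set Y) (c : κ → ℝ) (j : ℕ) : Prop :=
  ∃ s : Fin (j + 1) → L.ι → X → ℂ,
    (∀ b, SecP n p i univ L G c (s b)) ∧ Rk n (i ⁻¹' off G) L s

theorem kapM_iff {m : ℕ} :
    KapM n p i L G c m j ↔ Kp n p i (L.pow m) G (fun l => m * c l) j := Iff.rfl

theorem rk_of {O : Set X} {s : Fin (j + 1) → L.ι → X → ℂ} {s' : Fin (j + 1) → L'.ι → X → ℂ}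
    {x : X} {a : L.ι} {a' : L'.ι} {w : X → ℂ} (hx : x ∈ O) (ha' : x ∈ L'.U a') (h0 : s 0 a x ≠ 0)
    (hi : Ind n (fun (b : Fin j) y => s b.succ a y / s 0 a y) x)
    (h : ∀ᶠ y in 𝓝 x, w y ≠ 0 ∧ ∀ b, s' b a' y = w y * s b a y) : Rk n O L' s' := by
  refine ⟨x, hx, a', ha', ?_, ind_congr hi fun b => ?_⟩
  · rw [h.self_of_nhds.2]
    exact mul_ne_zero h.self_of_nhds.1 h0
  · filter_upwards [h] with y hy
    rw [hy.2, hy.2, mul_div_mul_left _ _ hy.1]

theorem Kp.iso (hG : Gd n p i G) (hL : IsLB n L) (hL' : IsLB n L') (e : LIso n L' L)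
    (h : Kp n p i L G c j) : Kp n p i L' G c j := by
  obtain ⟨t, ht⟩ := e
  obtain ⟨s, hs, x, hx, a, ha, h0, hi⟩ := h
  obtain ⟨a', ha'⟩ := hL'.cover x
  refine ⟨fun b => LRel.map hL t (s b), fun b => ht.secP hL' hL isOpen_univ (opn hG) (hs b),
    rk_of (w := t a' a) hx ha' h0 hi ?_⟩
  filter_upwards [lb_near hL ha, lb_near hL' ha', (opn hG).mem_nhds hx] with y k1 k2 k3
  exact ⟨ht.ne _ _ y k2 k1, fun b => ht.map_eq hL' hL
    (fun b1 b2 l1 l2 => (hs b).chg b1 b2 y trivial l1 l2 k3) k2 k1⟩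

theorem kp_mul (hG : Gd n p i G) {s : Fin (j + 1) → L.ι → X → ℂ} {t : L'.ι → X → ℂ}
    (hs : ∀ b, SecP n p i univ L G c (s b)) (ht : SecP n p i univ L' G c' t) {x : X} {a : L.ι}
    {a' : L'.ι} (hx : i x ∈ off G) (ha : x ∈ L.U a) (ha' : x ∈ L'.U a') (h0 : s 0 a x ≠ 0)
    (hi : Ind n (fun (b : Fin j) y => s b.succ a y / s 0 a y) x) (h1 : t a' x ≠ 0) :
    Kp n p i (L.mul L') G (fun l => c l + c' l) j := by
  refine ⟨fun b a x => s b a.1 x * t a.2 x, fun b => (hs b).mul hG.hol.cont ht,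
    rk_of (L' := L.mul L') (a' := (a, a')) (w := t a') hx ⟨ha, ha'⟩ h0 hi ?_⟩
  filter_upwards [(ht.hol a' x trivial ha' hx).ne_near h1] with y hy
  exact ⟨hy, fun b => mul_comm _ _⟩

theorem Kp.pow (hG : Gd n p i G) (hL : IsLB n L) (h : Kp n p i L G c j) {k : ℕ} (hk : 0 < k) :
    Kp n p i (L.pow k) G (fun l => k * c l) j := by
  obtain ⟨k, rfl⟩ := Nat.exists_eq_succ_of_ne_zero hk.ne'
  obtain ⟨s, hs, x, hx, a, ha, h0, hi⟩ := h
  have h1 := kp_mul (L' := L.pow k) (a' := a) hG hs ((hs 0).pow hG.hol.cont k) hx ha ha h0 hi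
    (pow_ne_zero k h0)
  have h2 : (fun l => ((k.succ : ℕ) : ℝ) * c l) = fun l => c l + k * c l :=
    funext fun l => by push_cast; ring
  rw [h2]
  refine h1.iso hG (lb_mul hL (lb_pow hL k)) (lb_pow hL _) ?_
  exact liso_of_map' (lb_mul hL (lb_pow hL k)) (fun a => (a, a)) (fun _ _ k => ⟨k, k⟩)
    fun _ _ _ _ _ => (pow_succ' _ _).symm

/-- the identity theorem -/
theorem nz_all [PreconnectedSpace X] (hG : Gd n p i G) (hL : IsLB n L) {t : L.ι → X → ℂ}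
    (ht : SecP n p i univ L G c t) {x₀ : X} {a₀ : L.ι} (hx₀ : i x₀ ∈ off G) (ha₀ : x₀ ∈ L.U a₀)
    (h0 : t a₀ x₀ ≠ 0) {x : X} (hx : i x ∈ off G) : ∃ a, x ∈ L.U a ∧ Nz (t a) x := by
  have hc : IsPreconnected (i ⁻¹' off G) := compl_compl (i ⁻¹' off G) ▸ (thin hG).preconn
  have h1 : IsOpen {x | i x ∈ off G ∧ ∃ a, x ∈ L.U a ∧ Nz (t a) x} :=
    isOpen_iff_mem_nhds.2 fun x ⟨k1, a, k2, k3⟩ => by
      filter_upwards [(opn hG).mem_nhds k1, lb_near hL k2,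
        Nz.near k3 (ht.hol a x trivial k2 k1)] with y l1 l2 l3 using ⟨l1, a, l2, l3⟩
  have h2 : IsOpen {x | ∀ᶠ y in 𝓝 x, ∀ a, y ∈ L.U a → t a y = 0} :=
    isOpen_iff_mem_nhds.2 fun x k => Eventually.eventually_nhds k
  refine (hc.subset_left_of_subset_union h1 h2 ?_ ?_
    ⟨x₀, hx₀, hx₀, a₀, ha₀, fun k => h0 k.self_of_nhds⟩ hx).2
  · refine Set.disjoint_left.2 fun x ⟨_, a, k2, k3⟩ k4 => k3 ?_
    filter_upwards [k4, lb_near hL k2] with y l1 l2 using l1 a l2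
  · intro x k1
    obtain ⟨a, ha⟩ := hL.cover x
    by_cases k2 : ∀ᶠ y in 𝓝 x, t a y = 0
    · refine Or.inr ?_
      filter_upwards [k2, (opn hG).mem_nhds k1, lb_near hL ha] with y l1 l2 l3 b l4
      rw [ht.chg b a y trivial l4 l3 l2, l1, mul_zero]
    · exact Or.inl ⟨k1, a, ha, k2⟩

theorem Kp.mul [PreconnectedSpace X] (hG : Gd n p i G) (hL : IsLB n L) (hL' : IsLB n L')
    (h : Kp n p i L G c j) (h' : Kp n p i L' G c' 0) :
    Kp n p i (L.mul L') G (fun l => c l + c' l) j := by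
  obtain ⟨s, hs, x, hx, a, ha, h0, hi⟩ := h
  obtain ⟨t, ht, x₀, hx₀, a₀, ha₀, h1, -⟩ := h'
  obtain ⟨a', ha', h2⟩ := nz_all hG hL' (ht 0) hx₀ ha₀ h1 hx
  have h3 : ∀ᶠ y in 𝓝 x, i y ∈ off G ∧ y ∈ L.U a ∧ y ∈ L'.U a' ∧ s 0 a y ≠ 0 ∧
      Ind n (fun (b : Fin j) y => s b.succ a y / s 0 a y) y := by
    filter_upwards [(opn hG).mem_nhds hx, lb_near hL ha, lb_near hL' ha',
      ((hs 0).hol a x trivial ha hx).ne_near h0, hi.near] with y k1 k2 k3 k4 k5
      using ⟨k1, k2, k3, k4, k5⟩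
  obtain ⟨y, k0, k1, k2, k3, k4, k5⟩ := ((not_eventually.1 h2).and_eventually h3).exists
  exact kp_mul hG hs (ht 0) k1 k2 k3 k4 k5 k0

theorem bdP_one [DecidableEq κ] (hG : Gd n p i G) {x : X} {l₀ : κ} {σ : Y → ℂ}
    (h : LEq p (G l₀) (i x) σ) (z : ℤ) :
    BdP p i G (fun l => if l₀ = l then -(z : ℝ) else 0) (fun y => σ (i y) ^ z) x := by
  obtain ⟨ζ, hζ, -⟩ := hG.snc (i x)
  have h1 : ∀ l, LEq p (G l) (i x) (Function.update ζ l₀ σ l) := fun l => by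
    by_cases k : l = l₀
    · subst k
      rwa [Function.update_self]
    · rw [Function.update_of_ne k]
      exact hζ l
  have h2 := bdP_mono hG.hol.cont.continuousAt h1 fun l => if l₀ = l then z else 0
  have h3 : (fun l => -(((if l₀ = l then z else 0 : ℤ)) : ℝ)) =
      fun l => if l₀ = l then -(z : ℝ) else 0 := funext fun l => by split_ifs <;> simp
  rw [h3] at h2
  refine h2.congr (.of_forall fun y _ => ?_)
  rw [Finset.prod_eq_single_of_mem l₀ (Finset.mem_univ _), if_pos rfl, Function.update_self]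
  intro l _ k
  rw [if_neg k.symm, zpow_zero]

theorem kp_dv [DecidableEq κ] [Nonempty X] (hG : Gd n p i G) {α : Type} [Fintype α] (e : α → κ)
    {O : α → Bd Y} {σ : ∀ a, (O a).ι → Y → ℂ} (z : α → ℤ)
    (hD : ∀ a, IsDiv p (G (e a)) (O a) (σ a)) :
    Kp n p i (pull i (lin O z)) G (fun l => -∑ a with e a = l, (z a : ℝ)) 0 := by
  have h0 : ∀ x a j, i x ∈ off G → i x ∈ (O a).U j → σ a j (i x) ≠ 0 := fun x a j h1 h2 =>
    mt ((hD a).leq j _ h2).mem.1 (h1 _)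
  obtain ⟨x, hx⟩ := hG.dense.nonempty
  choose j hj using fun a => (hD a).lb.cover (i x)
  refine ⟨fun _ j x => ∏ a, σ a (j a) (i x) ^ z a, fun _ => ⟨fun j x _ hj hx => Hol.prod _
    fun a _ => (hG.hol.hol (sec_hol (hD a).sec (hj a))).zpow (h0 x a _ hx (hj a)) _,
    fun j j' x _ hj hj' _ => ?_, fun j x _ hj => ?_⟩, x, hx, j, hj,
    Finset.prod_ne_zero_iff.2 fun a _ => zpow_ne_zero _ (h0 x a _ hx (hj a)),
    fun b => b.elim0, fun _ _ => linearIndependent_empty_type⟩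
  · show _ = (∏ a, _) * _
    rw [← Finset.prod_mul_distrib]
    exact Finset.prod_congr rfl fun a _ => by
      rw [(hD a).sec.change _ _ _ (hj a) (hj' a), mul_zpow]
  · have h1 := bdP_prod hG.hol.cont.continuousAt Finset.univ
      fun a _ => bdP_one hG ((hD a).leq _ _ (hj a)) (z a)
    have h2 : (fun l => ∑ a, if e a = l then -(z a : ℝ) else 0) =
        fun l => -∑ a with e a = l, (z a : ℝ) := funext fun l => by
      rw [← Finset.sum_neg_distrib, Finset.sum_filter]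
    rw [h2] at h1
    exact h1

end Kap1

open Kap1

theorem eqv : EQV := by
  intro n p V W κ _ i G hG L L' c j hL hL' ⟨u, h1, h2⟩ ⟨m, hm, h⟩
  refine ⟨m, hm, kapM_iff.2 ((kapM_iff.1 h).iso hG (lb_pow hL m) (lb_pow hL' m)
    ⟨fun a' a x => u a a' x ^ m, fun a' a x ha' ha => (h1 a a' x ha ha').1.pow m,
      fun a' a x ha' ha => pow_ne_zero m (h1 a a' x ha ha').2,
      fun a' b' a b x ha' hb' ha hb => ?_⟩)⟩
  show _ ^ m * _ ^ m = _ ^ m * _ ^ m
  rw [← mul_pow, ← mul_pow, h2 a b a' b' x ha hb ha' hb']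

theorem pow : POW := by
  intro n p V W κ _ i G hG L c j k hL hk
  refine ⟨fun ⟨m, hm, h⟩ => ⟨m, hm, kapM_iff.2 ?_⟩,
    fun ⟨m, hm, h⟩ => ⟨k * m, Nat.mul_pos hk hm, kapM_iff.2 ?_⟩⟩
  · have h1 := (kapM_iff.1 h).pow hG (lb_pow hL m) hk
    rw [pow_pow, mul_comm m, ← pow_pow] at h1
    have h2 : (fun l => (m : ℝ) * (k * c l)) = fun l => (k : ℝ) * (m * c l) :=
      funext fun l => mul_left_comm _ _ _
    rw [h2]
    exact h1
  · have h1 := kapM_iff.1 h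
    rw [pow_pow] at h1
    have h2 : (fun l => ((k * m : ℕ) : ℝ) * c l) = fun l => (m : ℝ) * (k * c l) :=
      funext fun l => by push_cast; ring
    rw [h2]
    exact h1

theorem add : ADD := by
  intro n p V W κ _ i G hG L L' c c' j _ hL hL' ⟨m, hm, h⟩ ⟨m', hm', h'⟩
  have h1 := (kapM_iff.1 h).pow hG (lb_pow hL m) hm'
  have h2 := (kapM_iff.1 h').pow hG (lb_pow hL' m') hm
  rw [pow_pow] at h1
  rw [pow_pow, mul_comm m'] at h2
  refine ⟨m * m', Nat.mul_pos hm hm', kapM_iff.2 ?_⟩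
  have h3 : (fun l => ((m * m' : ℕ) : ℝ) * (c l + c' l)) =
      fun l => (m' : ℝ) * (m * c l) + (m : ℝ) * (m' * c' l) :=
    funext fun l => by push_cast; ring
  rw [mul_pow', h3]
  exact h1.mul hG (lb_pow hL _) (lb_pow hL' _) h2

theorem dv : DV := by
  intro n p V W κ _ i G hG α _ _ e O σ z _ hD
  refine ⟨1, one_pos, kapM_iff.2 ?_⟩
  have h1 : (fun l => ((1 : ℕ) : ℝ) * -∑ a with e a = l, (z a : ℝ)) =
      fun l => -∑ a with e a = l, (z a : ℝ) := funext fun l => by rw [Nat.cast_one, one_mul]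
  rw [pow_one', h1]
  exact kp_dv hG e z hD

end Vale.Agent.P281Z.En
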