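import Vale.Agent.P281Z.En.Sk
import Vale.Agent.P281Z.Mf.Mod
import Vale.Agent.P281Z.Sc.Bd
import Vale.Agent.P277Z.Slc.Div
import Vale.Agent.P277Z.Hl.Desc

/-!
# P281, block END: the extension theorem of Riemann and its consequences for sections
-/

open scoped Manifold ContDiff Topology
open Set Filter
open Vale.Agent.P272.K Vale.Agent.P285.H281.FD
open Vale.Agent.P277Z (Hol)
open Vale.Agent.P277Z.Slc (Ind LEq)
open Vale.Agent.P277Z.Slc.Dv (ext ext_at ext_eq eq_of_dense)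

noncomputable section

namespace Vale.Agent.P281Z.En

/-- **RIEM** -/
theorem riem : RIEM := by
  intro n V T O φ hT hO h1 h2
  refine ⟨ext Tᶜ φ, fun x hx => ?_, fun x hx hxT =>
    ext_at hT.dense (h1 x hx hxT).cont (.of_forall fun _ _ => rfl)⟩
  obtain ⟨g, g1, g2, g3⟩ := hT.nz x
  obtain ⟨C, hC⟩ := h2 x hx
  obtain ⟨b, b1, b2⟩ := P277Z.Hl.Ds.riem (f := φ) (C := C) g1 g2 (by
    filter_upwards [g3, hC, hO.mem_nhds hx] with y k1 k2 k3 k4
      using ⟨h1 y k3 (mt k1 k4), k2 (mt k1 k4)⟩)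
  refine b1.congr (ext_eq hT.dense b1 ?_)
  filter_upwards [b1.near, b2.eventually_nhds, g2.near g1, hO.mem_nhds hx] with y k1 k2 k3 k4 k5
  exact tendsto_nhds_unique_of_frequently_eq (h1 y k4 k5).cont k1.cont
    (((not_eventually.1 k3).and_eventually k2).mono fun z k => (k.2 k.1).symm)

namespace K2

variable {n p : ℕ} {V : Mf n} {L : Bd V.X}

/-- extension of sections -/
theorem ext_sec (hL : IsLB n L) {T O : Set V.X} (hT : Thin n T) (hO : IsOpen O)
    {s : L.ι → V.X → ℂ} (h1 : ∀ a, ∀ x ∈ O, x ∈ L.U a → x ∉ T → Hol n (s a) x)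
    (h2 : ∀ a b, ∀ x ∈ O, x ∈ L.U a → x ∈ L.U b → x ∉ T → s a x = L.g a b x * s b x)
    (h3 : ∀ a, ∀ x ∈ O, x ∈ L.U a → ∃ C : ℝ, ∀ᶠ y in 𝓝 x, y ∉ T → ‖s a y‖ ≤ C) :
    ∃ t : L.ι → V.X → ℂ, (∀ a, ∀ x ∈ O, x ∈ L.U a → Hol n (t a) x) ∧
      (∀ a b, ∀ x ∈ O, x ∈ L.U a → x ∈ L.U b → t a x = L.g a b x * t b x) ∧
      ∀ a, ∀ x ∈ O, x ∈ L.U a → x ∉ T → t a x = s a x := by
  choose t t1 t2 using fun a => riem n V T (O ∩ L.U a) (s a) hT (hO.inter (hL.isOpen a))
    (fun x hx => h1 a x hx.1 hx.2) fun x hx => h3 a x hx.1 hx.2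
  refine ⟨t, fun a x k k' => t1 a x ⟨k, k'⟩, fun a b x hx ha hb => eq_of_dense hT.dense
    (t1 a x ⟨hx, ha⟩).cont ((lb_hol hL ha hb).mul (t1 b x ⟨hx, hb⟩)).cont ?_,
    fun a x k k' => t2 a x ⟨k, k'⟩⟩
  filter_upwards [hO.mem_nhds hx, lb_near hL ha, lb_near hL hb] with y k1 k2 k3 k4
  rw [t2 a y ⟨k1, k2⟩ k4, t2 b y ⟨k1, k3⟩ k4, h2 a b y k1 k2 k3 k4]

/-- the point where the rank is attained can be moved into a dense open set -/
theorem rk_move (hL : IsLB n L) {j : ℕ} {s t : Fin (j + 1) → L.ι → V.X → ℂ} {O O' D : Set V.X}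
    (h : Rk n O L s) (hO : IsOpen O) (h0 : ∀ a, ∀ x ∈ O, x ∈ L.U a → Hol n (s 0 a) x)
    (hD : IsOpen D) (hd : Dense D) (hs : D ⊆ O')
    (e : ∀ b a, ∀ x ∈ D, x ∈ O → x ∈ L.U a → t b a x = s b a x) : Rk n O' L t := by
  obtain ⟨x, hx, a, ha, h1, h2⟩ := h
  obtain ⟨y, k, k1, k2, k3, k4⟩ := ((mem_closure_iff_frequently.1 (hd x)).and_eventually
    ((hO.eventually_mem hx).and ((lb_near hL ha).and
      (((h0 a x hx ha).ne_near h1).and h2.near)))).exists
  refine ⟨y, hs k, a, k2, e 0 a y k k1 k2 ▸ k3, ind_congr k4 fun b => ?_⟩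
  filter_upwards [hD.mem_nhds k, hO.mem_nhds k1, lb_near hL k2] with z a1 a2 a3
  rw [e _ a z a1 a2 a3, e _ a z a1 a2 a3]

variable {W : Mf p} {κ : Type} [Fintype κ] {i : V.X → W.X} {G : κ → Set W.X}

theorem gd_thin (h : Gd n p i G) : Thin n (i ⁻¹' off G)ᶜ :=
  ⟨(snc_thin_off h.snc).an.pre h.hol, (compl_compl (i ⁻¹' off G)).symm ▸ h.dense⟩

theorem gd_open (h : Gd n p i G) : IsOpen (i ⁻¹' off G) :=
  (Hyp.of_snc h.snc).isOpen.preimage h.hol.cont

theorem wt_pow {Y : Type} (ζ : κ → Y → ℂ) (c : κ → ℝ) (m : ℕ) (y : Y) :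
    ∏ l, ‖ζ l y‖ ^ (m * c l) = (∏ l, ‖ζ l y‖ ^ c l) ^ m := by
  rw [← Finset.prod_pow]
  exact Finset.prod_congr rfl fun l _ => by rw [mul_comm, Real.rpow_mul_natCast (norm_nonneg _)]

/-- the bound can be checked on a dense set -/
theorem bdP_dense (h : Gd n p i G) {D : Set V.X} (hD : Dense D) {u u' : V.X → ℂ} {c : κ → ℝ}
    {x : V.X} (hu : BdP p i G c u x)
    (h1 : ∀ᶠ y in 𝓝 x, i y ∈ off G → ContinuousAt u' y ∧ (y ∈ D → u' y = u y)) :
    BdP p i G c u' x := fun ζ hζ => by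
  obtain ⟨C, hC⟩ := hu ζ hζ
  refine ⟨C, ?_⟩
  filter_upwards [hC.eventually_nhds, h1.eventually_nhds, h.hol.cont.continuousAt.eventually
    (eventually_all.2 fun l => (hζ l).near)] with y k1 k2 k3 k4
  refine isClosed_Iic.mem_of_frequently_of_tendsto
    (((mem_closure_iff_frequently.1 (hD y)).and_eventually
      (k1.and (k2.and ((gd_open h).eventually_mem k4)))).mono fun z k => ?_)
    ((k2.self_of_nhds k4).1.norm.mul (tendsto_finsetProd _ fun l _ =>
      ((k3 l).hol.cont.comp h.hol.cont.continuousAt).norm.rpow_const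
        (.inl (norm_ne_zero_iff.2 (mt (k3 l).mem.1 (k4 l))))))
  have := k.2.1 k.2.2.2
  rwa [← (k.2.2.1 k.2.2.2).2 k.1] at this

end K2

open K2

/-- **CHG** -/
theorem chg : CHG := by
  classical
  rintro n p V W κ _ i G hG p' W' κ' _ i' G' L c c' j hG' hL hd ⟨m, hm, s, h1, h2⟩
  have key : ∀ b a x, x ∈ L.U a → BdP p' i' G' (fun l => m * c' l)
      (fun y => if i y ∈ off G then s b a y else 0) x := fun b a x ha ζ' hζ' => by
    obtain ⟨ζ, hζ⟩ := Hyp.of_snc hG.snc (i x)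
    obtain ⟨C, hC⟩ := (h1 b).bd a x trivial ha ζ hζ
    obtain ⟨C', hC'⟩ := hd x ζ ζ' hζ hζ'
    refine ⟨|C'| ^ m * |C|, ?_⟩
    filter_upwards [hC, hC'] with y k1 k2 k3
    split_ifs with k4
    · rw [wt_pow] at k1 ⊢
      have k5 := pow_le_pow_left₀ (wt_nonneg _ _ _) ((k2 k4 k3).trans
        (mul_le_mul_of_nonneg_right (le_abs_self C') (wt_nonneg _ _ _))) m
      refine (mul_le_mul_of_nonneg_left k5 (norm_nonneg _)).trans ?_
      rw [mul_pow, mul_left_comm]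
      exact mul_le_mul_of_nonneg_left ((k1 k4).trans (le_abs_self C)) (by positivity)
    · rw [norm_zero, zero_mul]
      positivity
  choose t t1 t2 t3 using fun b => ext_sec (s := s b) (lb_pow hL m) (gd_thin hG) (gd_open hG')
    (fun a x _ ha k => (h1 b).hol a x trivial ha (not_not.1 k))
    (fun a a' x _ ha ha' k => (h1 b).chg a a' x trivial ha ha' (not_not.1 k)) fun a x hx ha => by
      obtain ⟨C, hC⟩ := (key b a x ha).bdd (Hyp.of_snc hG'.snc) hG'.hol.cont.continuousAt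
        fun l k => (hx l k).elim
      refine ⟨C, ?_⟩
      filter_upwards [hC, (gd_open hG').mem_nhds hx] with y k1 k2 k3
      simpa only [if_pos (show i y ∈ off G from not_not.1 k3)] using k1 k2
  refine ⟨m, hm, t, fun b => ⟨fun a x _ ha k => t1 b a x k ha, fun a a' x _ ha ha' k =>
    t2 b a a' x k ha ha', fun a x _ ha => bdP_dense hG' hG.dense (key b a x ha) ?_⟩,
    rk_move (lb_pow hL m) h2 (gd_open hG) (fun a x k ha => (h1 0).hol a x trivial ha k)
      (gd_open hG') hG'.dense Subset.rfl fun b a x k k' ha => t3 b a x k ha (not_not.2 k')⟩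
  filter_upwards [lb_near hL ha] with y k1 k2
  exact ⟨(t1 b a y k2 k1).cont, fun k => (t3 b a y k2 k1 (not_not.2 k)).trans (if_pos k).symm⟩

/-- **HOL** -/
theorem hol : HOL := by
  intro n p V W κ _ i G hG L j hL
  refine exists_congr fun m => and_congr_right fun _ => ⟨fun ⟨s, h1, h2⟩ => ?_, fun ⟨s, h1, h2⟩ =>
    ⟨s, fun b => secP_of_sec hG.hol.cont (h1 b) fun _ => (mul_zero _).ge,
      rk_move (lb_pow hL m) h2 isOpen_univ (fun a x _ ha => sec_hol (h1 0) ha) (gd_open hG)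
        hG.dense Subset.rfl fun _ _ _ _ _ _ => rfl⟩⟩
  choose t t1 t2 t3 using fun b => ext_sec (s := s b) (lb_pow hL m) (gd_thin hG) isOpen_univ
    (fun a x _ ha k => (h1 b).hol a x trivial ha (not_not.1 k))
    (fun a a' x _ ha ha' k => (h1 b).chg a a' x trivial ha ha' (not_not.1 k)) fun a x _ ha =>
      (((h1 b).bdP trivial ha).bdd (Hyp.of_snc hG.snc) hG.hol.cont.continuousAt
        fun _ _ => (mul_zero _).le).imp fun _ k => k.mono fun _ k k' => k (not_not.1 k')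
  exact ⟨t, fun b => isSec_of (fun a x => t1 b a x trivial) fun a a' x => t2 b a a' x trivial,
    rk_move (lb_pow hL m) h2 (gd_open hG) (fun a x k ha => (h1 0).hol a x trivial ha k)
      isOpen_univ dense_univ Subset.rfl fun b a x _ k ha => t3 b a x trivial ha (not_not.2 k)⟩

/-- **PUSH** -/
theorem push : PUSH := by
  intro n V V' π B L t hπ hL ht
  obtain ⟨v, v1, v2, v3⟩ := hπ.inv
  have hU : ∀ a x, x ∈ L.U a → v x ∈ (P277.HD.pull π L).U a := fun a x ha =>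
    show π (v x) ∈ L.U a from (v1 x).symm ▸ ha
  obtain ⟨s, s1, s2, s3⟩ := ext_sec (s := fun a x => t a (v x)) hL hπ.thin isOpen_univ
    (fun a x _ ha k => (v3 x k).1.hol (sec_hol ht (hU a x ha)))
    (fun a b x _ ha hb _ => (ht.change a b _ (hU a x ha) (hU b x hb)).trans
      (congrArg (fun z => L.g a b z * t b (v x)) (v1 x))) fun a x _ ha => by
      have hc : ∀ y ∈ π ⁻¹' {x}, ContinuousAt (t a) y := fun y hy =>
        (sec_hol ht (show π y ∈ L.U a from hy.symm ▸ ha)).cont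
      obtain ⟨C, hC⟩ := (isClosed_singleton.preimage hπ.hol.cont).isCompact
        |>.exists_bound_of_continuousOn fun y hy => (hc y hy).continuousWithinAt
      exact ⟨C + 1, (hπ.hol.cont.isClosedMap.eventually_nhds_fiber (p := fun y => ‖t a y‖ ≤ C + 1)
        x fun y hy => ((hc y hy).norm.eventually (gt_mem_nhds ((hC y hy).trans_lt
          (lt_add_one C)))).mono fun _ => le_of_lt).mono fun z k _ => k _ (v1 z)⟩
  refine ⟨s, isSec_of (fun a x => s1 a x trivial) fun a b x => s2 a b x trivial, fun a y ha =>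
    eq_of_dense (a := fun y => s a (π y)) hπ.thin_pre.dense
      (hπ.hol.hol (s1 a _ trivial ha)).cont (sec_hol ht ha).cont ?_⟩
  filter_upwards [hπ.hol.cont.continuousAt.eventually (lb_near hL ha)] with z k1 k2
  rw [s3 a _ trivial k1 k2, v2 z k2]

end Vale.Agent.P281Z.En
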