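import Vale.Agent.P281Z.En.Sk
import Vale.Agent.P281Z.Mf.Fib

/-!
# P281, block END: the lemma of Kodaira
-/

open scoped Manifold ContDiff Topology
open Set Filter
open Vale.Agent.P272.K Vale.Agent.P285.H281.FD
open Vale.Agent.P277Z (Hol at_chart)
open Vale.Agent.P277Z.Slc (Ind LEq Snc dd)
open Vale.Agent.P277.HD (pull)

noncomputable section

namespace Vale.Agent.P281Z.En

namespace KodH

variable {n : ℕ} {X Y : Type} [TopologicalSpace X] [ChartedSpace (Cm n) X] [TopologicalSpace Y]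
  [ChartedSpace (Cm n) Y]

theorem ind_empty {α : Type} [IsEmpty α] (h : α → X → ℂ) (x : X) : Ind n h x :=
  ⟨isEmptyElim, fun _ _ => linearIndependent_empty_type⟩

theorem snc_empty : Snc n (Empty.elim : Empty → Set X) := fun x =>
  ⟨Empty.elim, fun l => l.elim, ind_empty _ x⟩

theorem hol_zero {F : Type} [TopologicalSpace F] [ChartedSpace (Cm 0) F] (a : F → ℂ) (x : F) :
    Hol 0 a x := fun e _ =>
  (analyticAt_const (v := a (e.symm (e x)))).congr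
    (.of_forall fun z => by rw [Subsingleton.elim z (e x)])

theorem sbm_of [IsManifold 𝓘(ℂ, Cm n) ω X] [IsManifold 𝓘(ℂ, Cm n) ω Y] {g : X → Y} {x : X}
    {φ : Fin n → Y → ℂ} (hg : HolA n n g x) (hφ : ∀ b, Hol n (φ b) (g x))
    (h : Ind n (fun b y => φ b (g y)) x) : Sbm n n g x := by
  refine imm_iff_sbm.1 (.of_chart hg (at_chart x) (at_chart (g x)) fun v w k => ?_)
  refine (LinearMap.injective_iff_surjective (f := (ContinuousLinearMap.pi fun b =>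
    dd (fun y => φ b (g y)) (chartAt (Cm n) x) x : Cm n →L[ℂ] Cm n).toLinearMap)).2
    ((P277Z.Slc.ind_iff_surj _).1 (h.2 _ (at_chart x))) (funext fun b => ?_)
  show dd (fun y => φ b (g y)) (chartAt (Cm n) x) x v =
    dd (fun y => φ b (g y)) (chartAt (Cm n) x) x w
  rw [dd_comp (hφ b) hg (at_chart x) (at_chart (g x)), ContinuousLinearMap.comp_apply,
    ContinuousLinearMap.comp_apply, k]

end KodH

open KodH in
/-- **KOD** -/
theorem kod_of (h1 : MERG) (h2 : PUSH) (h3 : START) (h4 : GEN) (h5 : Pb.PSEX) : KOD := by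
  rintro n V L L' hV hL hL' ⟨s, hs, x₀, -, a, k1, k2, k3⟩
  obtain ⟨S⟩ := h5 n
  obtain ⟨V', π, B, g, ε, hπ, hg, -, -, hε⟩ := h1 n n V L s S hV hL hs ⟨0, a, x₀, k1, k2⟩
  obtain ⟨x₁, m1, m2, m3, m4⟩ := ((hπ.thin.freq x₀).and_eventually ((lb_near hL k1).and
    (((sec_hol (hs 0) k1).ne_near k2).and k3.near))).exists
  obtain ⟨y₀, rfl⟩ := hπ.ex m1
  choose hc hhc using fun y => S.lb.cover (g y)
  have e1 : ∀ᶠ y in 𝓝 y₀, π y ∉ B ∧ π y ∈ L.U a := hπ.hol.cont.continuousAt.eventually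
    ((hπ.thin.closed.isOpen_compl.eventually_mem m1).and (lb_near hL m2))
  have hs0 : Sbm n n g y₀ := by
    have h0 : S.x (hc y₀) (g y₀) 0 ≠ 0 := fun k =>
      m3 (by rw [(hε a _ y₀ m2 (hhc y₀)).2.2.1 0, k, mul_zero])
    refine sbm_of (φ := fun b p => S.x (hc y₀) p b.succ / S.x (hc y₀) p 0) (hg.at y₀)
      (fun b => (sec_hol (S.sec _) (hhc y₀)).div (sec_hol (S.sec _) (hhc y₀)) h0)
      (ind_congr ((hπ.sbm m1).ind (hπ.hol.at y₀) m4) fun b => ?_)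
    filter_upwards [e1, hg.cont.continuousAt.eventually (lb_near S.lb (hhc y₀))] with y p1 p2
    obtain ⟨-, q1, q2, -⟩ := hε a _ y p1.2 p2
    rw [q2, q2, mul_div_mul_left _ _ (q1 p1.1)]
  obtain ⟨S₀, hS₀, hst⟩ := h3 n n V' S.P g S.H (pull π L') Empty Empty.elim Empty.elim S.conn hg
    S.lb S.pos (hπ.hol.lb hL') snc_empty
  obtain ⟨Q, hQ, hreg⟩ := h4 n n V' S.P g Empty Empty.elim hg snc_empty
  obtain ⟨_, ⟨y₁, ⟨n1, n2⟩, rfl⟩, hz⟩ := (hS₀.union hQ.neg).ex (hs0.ev (hg.at y₀) e1)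
  obtain ⟨F, i, hi⟩ := fib_emb (d := 0) (y := g y₁) rfl hg fun x hx =>
    (hreg _ fun k => hz (Or.inr k)).sbm hg snc_empty hx
  choose ch hch using fun x => hL'.cover (π (i x))
  obtain ⟨j, hj⟩ := hst _ (fun k => hz (Or.inl k)) 0 F i hi (fun l x => L'.g l (ch x) (π (i x)))
    ⟨fun _ x _ _ _ => hol_zero _ x, fun l l' x _ p p' _ => (hL'.cocycle _ _ _ _ p p' (hch x)).symm,
      fun l x _ _ ζ _ => (bdd_near (hol_zero (fun x => L'.g l (ch x) (π (i x))) x).cont.norm).imp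
        fun C hC => hC.2.mono fun y hy _ => by simpa using hy⟩
  obtain ⟨t, ht, ht1⟩ := hj j le_rfl (hc y₁) (hhc y₁)
  have key : ∀ (q q' : L.ι × L'.ι) h h' y, π y ∈ ((L.pow j).mul L').U q →
      π y ∈ ((L.pow j).mul L').U q' → g y ∈ S.H.U h → g y ∈ S.H.U h' →
      ε q.1 h y ^ j * t (q.2, h) y =
        ((L.pow j).mul L').g q q' (π y) * (ε q'.1 h' y ^ j * t (q'.2, h') y) := by
    intro q q' h h' y p1 p2 p3 p4
    rw [ht.chg (q.2, h) (q'.2, h') y trivial ⟨p1.2, p3⟩ ⟨p2.2, p4⟩ fun l => l.elim]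
    have h6 := congrArg (· ^ j) ((hε q.1 h y p1.1 p3).2.2.2 q'.1 h' p2.1 p4)
    simp only [mul_pow] at h6
    show _ * (L'.g q.2 q'.2 (π y) * S.H.g h h' (g y) ^ j * _) =
      L.g q.1 q'.1 (π y) ^ j * L'.g q.2 q'.2 (π y) * _
    linear_combination (L'.g q.2 q'.2 (π y) * t (q'.2, h') y) * h6
  have hl := lb_mul (lb_pow hL j) hL'
  obtain ⟨σ, hσ, hσ1⟩ := h2 n V V' π B ((L.pow j).mul L')
    (fun q y => ε q.1 (hc y) y ^ j * t (q.2, hc y) y) hπ hl (isSec_of (fun q y hy => by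
      refine (((hε q.1 _ y hy.1 (hhc y)).1.pow j).mul
        (ht.hol (q.2, hc y) y trivial ⟨hy.2, hhc y⟩ fun l => l.elim)).congr ?_
      filter_upwards [lb_near (hπ.hol.lb hl) hy,
        hg.cont.continuousAt.eventually (lb_near S.lb (hhc y))] with y' p1 p2
      rw [key q q _ _ y' p1 p1 p2 (hhc y'), lb_self hl p1, one_mul])
    fun q q' y p p' => key q q' _ _ y p p' (hhc y) (hhc y))
  obtain ⟨x, hx⟩ := hi.ex (y := y₁) rfl
  have p1 : π y₁ ∈ L'.U (ch x) := hx ▸ hch x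
  refine ⟨j, fun _ => σ, fun _ => hσ, π y₁, trivial, (a, ch x), ⟨n2, p1⟩, ?_, ind_empty _ _⟩
  refine (hσ1 (a, ch x) y₁ ⟨n2, p1⟩).trans_ne
    (mul_ne_zero (pow_ne_zero _ ((hε a _ y₁ n2 (hhc y₁)).2.1 n1)) ?_)
  have h7 := ht1 x (ch x) (fun l => l.elim) (hch x)
  rw [hx] at h7
  exact h7.trans_ne (hL'.ne_zero _ _ _ p1 p1)

end Vale.Agent.P281Z.En
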