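import Vale.Agent.P281Z.En.Sk
import Vale.Agent.P281Z.Mf.An
import Vale.Agent.P281Z.Sc.Bd

/-!
# P281, block END: the base locus of a linear system can be resolved
-/

open scoped Manifold ContDiff Topology
open Set Filter
open Vale.Agent.P272.K Vale.Agent.P285.H281.FD
open Vale.Agent.P277Z (Hol at_chart)

noncomputable section

namespace Vale.Agent.P281Z.En

namespace Mg

theorem pt_smul {r : ℕ} (S : PS r) {v : Cm (r + 1)} (hv : v ≠ 0) {t : ℂ} (ht : t ≠ 0) :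
    S.pt (t • v) = S.pt v := by
  obtain ⟨h, hh⟩ := S.lb.cover (S.pt v)
  obtain ⟨c, hc⟩ := S.x_pt v hv h hh
  have c0 : c ≠ 0 := fun e => S.xnz h _ hh (by rw [hc, e, zero_smul])
  rw [← S.pt_x h _ (t / c) hh (div_ne_zero ht c0), hc, smul_smul, div_mul_cancel₀ _ c0]

variable {n r : ℕ} {V : Mf n} {L : Bd V.X} {s : Fin (r + 1) → L.ι → V.X → ℂ}

/-- the ideal of the base locus -/
def idl (hL : IsLB n L) (hs : ∀ b, IsSec n L (s b)) : Idl n V.X where
  Γ := L.ι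
  U := L.U
  k _ := r + 1
  g a b := s b a
  isOpen := hL.isOpen
  cover := hL.cover
  hol _ b _ ha := sec_hol (hs b) ha
  cpb a a' x ha ha' := by
    have h1 := (lb_hol hL ha ha').cont.norm
    have h2 := (lb_hol hL ha' ha).cont.norm
    have k : ∀ {a a' y} {C : ℝ}, y ∈ L.U a → y ∈ L.U a' → ‖L.g a a' y‖ < C →
        ∑ b, ‖s b a y‖ ≤ C * ∑ b, ‖s b a' y‖ := fun h h' c => by
      rw [Finset.mul_sum]
      refine Finset.sum_le_sum fun b _ => ?_
      rw [(hs b).change _ _ _ h h', norm_mul]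
      exact mul_le_mul_of_nonneg_right c.le (norm_nonneg _)
    refine ⟨‖L.g a a' x‖ + ‖L.g a' a x‖ + 1, by positivity, ?_⟩
    filter_upwards [lb_near hL ha, lb_near hL ha', h1.eventually_lt_const (lt_add_one _),
      h2.eventually_lt_const (lt_add_one _)] with y b1 b2 b3 b4
    exact ⟨k b1 b2 (by linarith [norm_nonneg (L.g a' a x)]),
      k b2 b1 (by linarith [norm_nonneg (L.g a a' x)])⟩

theorem mem_Z (hL : IsLB n L) (hs : ∀ b, IsSec n L (s b)) {a x} (ha : x ∈ L.U a) :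
    x ∈ (idl hL hs).Z ↔ ∀ b, s b a x = 0 :=
  ⟨fun h => h a ha, fun h (a' : L.ι) (ha' : x ∈ L.U a') (b : Fin (r + 1)) =>
    ((hs b).change _ _ _ ha' ha).trans (by rw [h, mul_zero])⟩

variable {V' : Mf n} {π : V'.X → V.X}

variable (s π) in
/-- near `y` the sections are proportional to `c` -/
structure Lc (a : L.ι) (c : V'.X → Cm (r + 1)) (μ : V'.X → ℂ) (y : V'.X) : Prop where
  mem : π y ∈ L.U a
  hol : ∀ b, Hol n (fun z => c z b) y
  ne : c y ≠ 0
  eq : ∀ᶠ z in 𝓝 y, ∀ b, s b a (π z) = μ z * c z b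

variable {a a' : L.ι} {c c' : V'.X → Cm (r + 1)} {μ μ' : V'.X → ℂ} {y : V'.X}

theorem Lc.cont (h : Lc s π a c μ y) : ContinuousAt c y := continuousAt_pi.2 fun b => (h.hol b).cont

theorem Lc.near (hL : IsLB n L) (hπ : Continuous π) (h : Lc s π a c μ y) :
    ∀ᶠ z in 𝓝 y, Lc s π a c μ z := by
  filter_upwards [hπ.continuousAt.eventually (lb_near hL h.mem),
    eventually_all.2 fun b => (h.hol b).near, h.cont.eventually_ne h.ne, h.eq.eventually_nhds]
    with z a1 a2 a3 a4 using ⟨a1, a2, a3, a4⟩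

theorem Lc.uniq (S : PS r) (hL : IsLB n L) (hs : ∀ b, IsSec n L (s b)) (hπ : Continuous π)
    (hd : Dense (π ⁻¹' (idl hL hs).Z)ᶜ) (h : Lc s π a c μ y) (h' : Lc s π a' c' μ' y) :
    S.pt (c y) = S.pt (c' y) := by
  refine tendsto_nhds_unique_of_frequently_eq ((S.cont _ h.ne).comp h.cont)
    ((S.cont _ h'.ne).comp h'.cont) (((mem_closure_iff_frequently.1 (hd y)).and_eventually
      ((h.near hL hπ).and (h'.near hL hπ))).mono fun z ⟨a1, a2, a3⟩ => ?_)
  have k : ∀ {a c μ}, Lc s π a c μ z → μ z ≠ 0 := fun h e =>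
    a1 ((mem_Z hL hs h.mem).2 fun b => by rw [h.eq.self_of_nhds, e, zero_mul])
  change S.pt (c z) = S.pt (c' z)
  rw [← pt_smul S a2.ne (k a2), ← pt_smul S a3.ne (mul_ne_zero (hL.ne_zero _ _ _ a2.mem a3.mem) (k a3))]
  refine congrArg _ (funext fun b => ?_)
  rw [Pi.smul_apply, Pi.smul_apply, smul_eq_mul, smul_eq_mul, mul_assoc, ← a2.eq.self_of_nhds,
    ← a3.eq.self_of_nhds, (hs b).change _ _ _ a2.mem a3.mem]

end Mg

open Mg in
theorem merg_of (hR : Rs.RES) : MERG := by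
  intro n r V L s S hV hL hs ⟨b₀, a₀, x₀, h0, h1⟩
  have z1 : An n (idl hL hs).Z := fun x => by
    obtain ⟨a, ha⟩ := hL.cover x
    exact ⟨r + 1, fun b => s b a, fun b => sec_hol (hs b) ha, (lb_near hL ha).mono fun y hy =>
      mem_Z hL hs hy⟩
  obtain ⟨R⟩ := hR n n V univ (idl hL hs) an_univ fun x hx => ⟨0, Fin.elim0, rfl,
    ⟨fun a => a.elim0, fun _ _ => linearIndependent_empty_type⟩, by
      filter_upwards [z1.closed.isOpen_compl.mem_nhds hx.2] with y hy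
      exact ⟨fun _ a => a.elim0, fun _ => ⟨trivial, hy⟩⟩⟩
  have hπ := R.ovr.hol
  have k1 : ∀ y a, R.π y ∈ L.U a → ∃ c μ, Lc s R.π a c μ y := fun y a ha => by
    obtain ⟨ζ, h2, -⟩ := R.snc y
    obtain ⟨c, c1, ⟨b, c2⟩, c3⟩ := R.prin y a ha ζ h2
    exact ⟨fun z b => c b z, fun z => ∏ l, ζ l z ^ R.e l, ha, c1, fun e => c2 (congrFun e b),
      c3.mono fun z hz b => (hz b).trans (mul_comm _ _)⟩
  choose α hα using fun y => hL.cover (R.π y)
  choose c μ hc using fun y => k1 y _ (hα y)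
  obtain ⟨g, hg⟩ : ∃ g : R.V.X → S.P.X, ∀ y a c μ, Lc s R.π a c μ y → g y = S.pt (c y) :=
    ⟨fun y => S.pt (c y y), fun y _ _ _ h => (hc y).uniq S hL hs hπ.cont R.ovr.dense h⟩
  have g1 : HolM n r g := fun y => by
    refine HolA.cng (f := fun z => S.pt (c y z)) (.of_an ((S.cont _ (hc y).ne).comp (hc y).cont)
      (at_chart y) (at_chart _) ?_) (((hc y).near hL hπ.cont).mono fun z h => (hg z _ _ _ h).symm)
    exact (S.an _ (hc y).ne _ (at_chart _)).comp_of_eq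
      (AnalyticAt.pi fun b => (hc y).hol b _ (at_chart y)) (by rw [(at_chart y).left_inv])
  have k2 : ∀ a h y, ∃ t, R.π y ∈ L.U a → g y ∈ S.H.U h →
      ∀ b, s b a (R.π y) = t * S.x h (g y) b := fun a h y => by
    by_cases e : R.π y ∈ L.U a ∧ g y ∈ S.H.U h
    swap
    · exact ⟨0, fun a1 a2 => (e ⟨a1, a2⟩).elim⟩
    obtain ⟨c, μ, k⟩ := k1 y a e.1
    have e2 := e.2
    rw [hg y _ _ _ k] at e2 ⊢
    obtain ⟨κ, hκ⟩ := S.x_pt _ k.ne h e2
    have κ0 : κ ≠ 0 := fun e => S.xnz h _ e2 (by rw [hκ, e, zero_smul])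
    exact ⟨μ y / κ, fun _ _ b => by
      rw [k.eq.self_of_nhds, hκ, Pi.smul_apply, smul_eq_mul, ← mul_assoc, div_mul_cancel₀ _ κ0]⟩
  choose ε hε using k2
  refine ⟨R.V, R.π, _, g, ε, ⟨z1.thin fun e => h1 ((e.ge (mem_univ x₀)) a₀ h0 b₀), R.ovr⟩, g1, R.kah,
    R.prj, fun a h y a1 a2 => ⟨?_, fun a3 e => a3 ((mem_Z hL hs a1).2 fun b => ?_), hε a h y a1 a2,
      fun a' h' a3 a4 => ?_⟩⟩
  · obtain ⟨b, hb⟩ := Function.ne_iff.1 (S.xnz h _ a2)
    have a3 := g1.hol (sec_hol (S.sec b) a2)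
    refine ((hπ.hol (sec_hol (hs b) a1)).div a3 hb).congr ?_
    filter_upwards [hπ.cont.continuousAt.eventually (lb_near hL a1),
      g1.cont.continuousAt.eventually (lb_near S.lb a2), a3.ne_near hb] with z b1 b2 b3
    rw [hε a h z b1 b2, mul_div_cancel_right₀ _ b3]
  · rw [hε a h y a1 a2, e, zero_mul]
  · obtain ⟨b, hb⟩ := Function.ne_iff.1 (S.xnz h' _ a4)
    refine mul_right_cancel₀ hb ?_
    rw [mul_assoc, ← (S.sec b).change _ _ _ a2 a4, ← hε a h y a1 a2, mul_assoc, ← hε a' h' y a3 a4,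
      ← (hs b).change _ _ _ a1 a3]

end Vale.Agent.P281Z.En
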