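import Vale.Agent.P281Z.En.Dom
import Vale.Agent.P281Z.Nt.Hyp
import Vale.Agent.P281Z.Mf.An

/-!
# P281, block END: vertical and horizontal components
-/

open scoped Manifold ContDiff Topology
open Set Filter
open Vale.Agent.P272.K
open Vale.Agent.P277Z (Hol)
open Vale.Agent.P277Z.Slc (Ind LEq Snc)

noncomputable section

namespace Vale.Agent.P281Z.En

namespace Sp

variable {n : ℕ} {X : Type} [TopologicalSpace X] {D T : Set X} {x : X} {ζ : X → ℂ}

/-- the components of `D` in `T` -/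
def vt (D T : Set X) : Set X := {x | x ∈ D ∧ ∀ᶠ y in 𝓝 x, y ∈ D → y ∈ T}

/-- the other components -/
def hz (D T : Set X) : Set X := {x | x ∈ D ∧ ∃ᶠ y in 𝓝 x, y ∈ D ∧ y ∉ T}

theorem mem_iff : x ∈ D ↔ x ∈ vt D T ∨ x ∈ hz D T := by
  refine ⟨fun h => ?_, fun h => h.elim And.left And.left⟩
  by_cases k : ∀ᶠ y in 𝓝 x, y ∈ D → y ∈ T
  · exact .inl ⟨h, k⟩
  · exact .inr ⟨h, fun c => k (c.mono fun y a b => by_contra fun d => a ⟨b, d⟩)⟩

theorem disj (h : x ∈ vt D T) : x ∉ hz D T := fun k => k.2 (h.2.mono fun _ a b => b.2 (a b.1))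

variable [ChartedSpace (Cm n) X]

theorem leq_one (h : ∀ᶠ y in 𝓝 x, y ∉ D) : LEq n D x fun _ => 1 :=
  ⟨h.mono fun _ a => iff_of_false one_ne_zero a, fun _ _ =>
    ⟨analyticAt_const, fun k => absurd k one_ne_zero⟩⟩

variable [IsManifold 𝓘(ℂ, Cm n) ω X]

theorem hz_near (h : LEq n D x ζ) (hT : An n T) (hx : x ∈ hz D T) :
    ∀ᶠ y in 𝓝 x, y ∈ D → y ∈ hz D T := by
  obtain ⟨k, g, h1, h2⟩ := hT x
  have h3 : ∃ i, ∃ᶠ y in 𝓝 x, y ∈ D ∧ g i y ≠ 0 := by
    by_contra c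
    refine hx.2 ?_
    filter_upwards [h2, eventually_all.2 fun i => not_frequently.1 (not_exists.1 c i)] with y a b d
      using d.2 (a.2 fun i => by_contra fun e => b i ⟨d.1, e⟩)
  obtain ⟨i, h3⟩ := h3
  filter_upwards [Nt.Hp.loc_id h (h1 i) h3 hx.1, h2.eventually_nhds] with y a b d
    using ⟨d, ((a d).and_eventually b).mono fun z e => ⟨e.1.1, fun t => e.1.2 (e.2.1 t i)⟩⟩

omit [IsManifold 𝓘(ℂ, Cm n) ω X] in
theorem vt_near (h : LEq n D x ζ) (hx : x ∉ hz D T) : ∀ᶠ y in 𝓝 x, y ∈ D → y ∈ vt D T := by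
  by_cases k : x ∈ D
  · filter_upwards [((mem_iff.1 k).resolve_right hx).2.eventually_nhds] with y a b using ⟨b, a⟩
  · exact (h.not_mem_near k).mono fun _ a b => absurd b a

open Classical in
theorem leq_vt (h : LEq n D x ζ) (hT : An n T) :
    LEq n (vt D T) x (if x ∈ hz D T then fun _ => 1 else ζ) := by
  split_ifs with k
  · exact leq_one ((hz_near h hT k).mono fun _ a b => disj b (a b.1))
  · exact leq_congr h (.of_forall fun _ => rfl) ((vt_near h k).mono fun _ a => ⟨a, And.left⟩)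

open Classical in
theorem leq_hz (h : LEq n D x ζ) (hT : An n T) :
    LEq n (hz D T) x (if x ∈ hz D T then ζ else fun _ => 1) := by
  split_ifs with k
  · exact leq_congr h (.of_forall fun _ => rfl) ((hz_near h hT k).mono fun _ a => ⟨a, And.left⟩)
  · exact leq_one ((vt_near h k).mono fun _ a b => disj (a b.1) b)

end Sp

open Sp in
theorem spl : SPL := by
  classical
  intro n p V Y f κ _ G Q hf hG hQ
  have hT : An n (f ⁻¹' Q) := hQ.pre hf
  set T := f ⁻¹' Q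
  let ξ : V.X → (κ → V.X → ℂ) → κ ⊕ κ → V.X → ℂ := fun x ζ =>
    Sum.elim (fun l => if x ∈ hz (G l) T then fun _ => 1 else ζ l)
      fun l => if x ∈ hz (G l) T then ζ l else fun _ => 1
  have key : ∀ x ζ, (∀ l, LEq n (G l) x (ζ l)) → ∀ l, LEq n
      (Sum.elim (fun l => vt (G l) T) (fun l => hz (G l) T) l) x (ξ x ζ l) := by
    rintro x ζ h (l | l)
    exacts [leq_vt (h l) hT, leq_hz (h l) hT]
  refine ⟨fun l => vt (G l) T, fun l => hz (G l) T, fun x => ?_, Set.ext fun x => ?_, ?_,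
    fun l x hx => ?_, fun c => dom_of_eq continuous_id continuous_id fun x => ?_⟩
  · obtain ⟨ζ, h1, h2⟩ := hG x
    refine ⟨ξ x ζ, key x ζ h1, ind_congr (h2.comp (fun l => ⟨Sum.elim id id l.1, ?_⟩) ?_) ?_⟩
    · obtain ⟨l | l, a⟩ := l
      exacts [a.1, a.1]
    · rintro ⟨l | l, a⟩ ⟨l' | l', a'⟩ e <;> obtain rfl : l = l' := congrArg Subtype.val e
      exacts [rfl, absurd a' (disj a), absurd a (disj a'), rfl]
    · rintro ⟨l | l, a⟩
      · exact .of_forall fun y => congrFun (if_neg (disj a)).symm y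
      · exact .of_forall fun y => congrFun (if_pos a).symm y
  · exact ⟨fun h l a => (mem_iff.1 a).elim (h (.inl l)) (h (.inr l)), fun h => by
      rintro (l | l) a
      exacts [h l a.1, h l a.1]⟩
  · rintro l _ ⟨x, hx, rfl⟩
    exact hx.2.self_of_nhds hx.1
  · obtain ⟨ζ, h1, -⟩ := hG x
    exact (hx.2.and_eventually (hz_near (h1 l) hT hx)).mono fun y a => ⟨a.2 a.1.1, a.1.2⟩
  · obtain ⟨ζ, h1, -⟩ := hG x
    refine ⟨ζ, ξ x ζ, h1, key x ζ h1, .of_forall fun y => ?_⟩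
    rw [Fintype.prod_sum_type, ← Finset.prod_mul_distrib]
    refine Finset.prod_congr rfl fun l _ => ?_
    simp only [ξ, Sum.elim_inl, Sum.elim_inr]
    split_ifs <;> simp

end Vale.Agent.P281Z.En
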