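import Vale.Agent.P281Z.En.Sk
import Vale.Agent.P281Z.Sc.Bd
import Vale.Agent.P281Z.Mf.An

/-!
# P281, block END: no poles along the components which are not over `Q` (TBH)
-/

open scoped Manifold ContDiff Topology
open Set Filter
open Vale.Agent.P272.K Vale.Agent.P285.H281.FD
open Vale.Agent.P277Z (Hol at_chart hol_const)
open Vale.Agent.P277Z.Slc (Ind LEq Snc)

noncomputable section

namespace Vale.Agent.P281Z.En

namespace TbhH

variable {n p : ℕ} {X Y : Type} [TopologicalSpace X] [ChartedSpace (Cm n) X]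
  [IsManifold 𝓘(ℂ, Cm n) ω X] [TopologicalSpace Y] [ChartedSpace (Cm p) Y]
  [IsManifold 𝓘(ℂ, Cm p) ω Y] {κ : Type} [Fintype κ] {G : κ → Set X} {ζ : κ → X → ℂ} {x : X}
  {S D : Set X} {ξ ψ v g : X → ℂ}

theorem hol_minor {f : X → Y} {e : Chart n X} {e' : Chart p Y} (hf : HolM n p f) (he : At e x)
    (he' : At e' (f x)) (I : Fin p → Fin n) : Hol n (minor f e e' I) x := by
  unfold minor
  simp only [Matrix.det_apply', Matrix.of_apply]
  refine Hol.sum _ fun σ _ => (hol_const _ _).mul (Hol.prod _ fun a _ => ?_)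
  exact P277Z.hol_comp he
    (f := fun z => fderiv ℂ (fun z => e' (f (e.symm z))) z (Pi.single (I a) 1) (σ a))
    (analyticAt_pi_iff.1 (((ContinuousLinearMap.apply ℂ (Cm p) (Pi.single (I a) 1)).analyticAt
      _).fun_comp ((hf.at x).an he he').fderiv) _)

/-- division by a local equation -/
theorem dv (h : LEq n S x ξ) (hψ : Hol n ψ x) (h0 : ∀ᶠ y in 𝓝 x, y ∈ S → ψ y = 0) :
    ∃ ψ', Hol n ψ' x ∧ ∀ᶠ y in 𝓝 x, ψ y = ξ y * ψ' y := by
  by_cases hx : ξ x = 0
  · have he := at_chart (n := n) x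
    set e := chartAt (Cm n) x
    have hd := (h.2 e he).2 hx
    obtain ⟨m, hm⟩ : ∃ m, Module.finrank ℂ (Cm n) = m + 1 := by
      refine Nat.exists_eq_succ_of_ne_zero fun h1 => hd ?_
      have := Module.finrank_zero_iff.1 h1
      exact Subsingleton.elim _ _
    obtain ⟨U, h1, h2⟩ := P277.H762.exists_div hm (h.2 e he).1 hd (by rwa [e.left_inv he.2])
      (hψ e he) ((at_ev he (h.1.and h0)).mono fun z hz h4 => hz.2 (hz.1.1 h4))
    refine ⟨fun y => U (e y), P277Z.hol_comp he h1, ?_⟩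
    filter_upwards [(e.continuousAt he.2).eventually h2, P277Z.At.left he] with z h4 hz
    rwa [hz] at h4
  · refine ⟨fun y => ψ y / ξ y, hψ.div h.hol hx, ?_⟩
    filter_upwards [h.hol.ne_near hx] with y hy
    rw [mul_div_cancel₀ _ hy]

/-- the points which are on one component only are dense -/
theorem freq (hG : Snc n G) {l : κ} (hx : x ∈ G l) :
    ∃ᶠ y in 𝓝 x, y ∈ G l ∧ ∀ l', y ∈ G l' → l' = l := by
  classical
  obtain ⟨ζ, h1, h2⟩ := hG x
  obtain ⟨d, hd⟩ := Nat.exists_eq_add_of_le (ind_le h2)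
  obtain ⟨Θ, -, k1, -, k2⟩ := exists_co h2 hd.symm univ_mem
  let w : ({l // x ∈ G l} → ℂ) × Cm d := (fun a => if a.1 = l then 0 else 1, 0)
  have t1 : Tendsto (fun t : ℂ => Θ x + t • w) (𝓝[≠] 0) (𝓝 (Θ x)) :=
    (Continuous.tendsto' (by fun_prop) 0 _ (by simp)).mono_left nhdsWithin_le_nhds
  have t2 := (Θ.tendsto_symm k1).comp t1
  refine t2.frequently (Eventually.frequently ?_)
  filter_upwards [t1.eventually (Θ.open_target.mem_nhds (Θ.map_source k1)), self_mem_nhdsWithin,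
    t2.eventually (eventually_all.2 fun l => (h1 l).1), t2.eventually (eventually_all.2
      fun l : {l // x ∉ G l} => (h1 l).not_mem_near l.2)] with t a1 a2 a3 a4
  have a5 : ∀ a : {l // x ∈ G l}, ζ a (Θ.symm (Θ x + t • w)) = if a.1 = l then 0 else t :=
    fun a => by
      have a6 := congrFun (k2 _ (Θ.map_target a1)) a
      rw [Θ.right_inv a1] at a6
      rw [← a6]
      simp [w, k2 x k1, (h1 a).mem.2 a.2]
  refine ⟨(a3 l).1 ((a5 ⟨l, hx⟩).trans (if_pos rfl)), fun l' a6 => by_contra fun a7 => ?_⟩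
  by_cases a8 : x ∈ G l'
  · exact a2 (((a5 ⟨l', a8⟩).trans (if_neg a7)).symm.trans ((a3 l').2 a6))
  · exact a4 ⟨l', a8⟩ a6

omit [IsManifold 𝓘(ℂ, Cm n) ω X] in
theorem tz {d : κ → ℝ} (hζ : ∀ l, LEq n (G l) x (ζ l)) (h : BdP n id G d v x) {l : κ}
    (hx : x ∈ G l) (hl : d l < 0) (h1 : ∀ l', x ∈ G l' → l' = l) :
    Tendsto v (𝓝[off G] x) (𝓝 0) := by
  obtain ⟨C, hC⟩ := h ζ hζ
  have h2 : ContinuousAt (fun y => ∏ l, ‖ζ l y‖ ^ (-d l)) x :=
    tendsto_finsetProd _ fun l' _ => (hζ l').hol.cont.norm.rpow_const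
      ((em (x ∈ G l')).symm.imp (fun k => norm_ne_zero_iff.2 (mt (hζ l').mem.1 k))
        fun k => by rw [h1 l' k]; linarith)
  have h3 : C * ∏ l, ‖ζ l x‖ ^ (-d l) = 0 := by
    rw [Finset.prod_eq_zero (Finset.mem_univ l), mul_zero]
    rw [(hζ l).mem.2 hx, norm_zero, Real.zero_rpow (by linarith)]
  refine squeeze_zero_norm' ?_ (h3 ▸ (h2.tendsto.const_mul C).mono_left nhdsWithin_le_nhds)
  filter_upwards [self_mem_nhdsWithin, mem_nhdsWithin_of_mem_nhds hC,
    mem_nhdsWithin_of_mem_nhds (off_iff hζ)] with y k1 k2 k3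
  refine le_trans (le_of_eq ?_) (mul_le_mul_of_nonneg_right (k2 k1) (wt_nonneg _ _ _))
  rw [id, mul_assoc, ← wt_add (k3.1 k1)]
  simp

/-- one division -/
theorem step (hD : Dense D) (h : LEq n S x ξ) (hS : ∀ y ∈ D, y ∉ S)
    (h0 : ∀ᶠ y in 𝓝 x, y ∈ S → ∃ᶠ z in 𝓝 y, Tendsto (fun w => v w * ξ w) (𝓝[D] z) (𝓝 0))
    (hg : Hol n g x) (hψ : Hol n ψ x) (e : ∀ᶠ y in 𝓝 x, y ∈ D → ψ y = v y * ξ y * g y) :
    ∃ ψ', Hol n ψ' x ∧ ∀ᶠ y in 𝓝 x, y ∈ D → ψ' y = v y * g y := by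
  obtain ⟨ψ', k1, k2⟩ := dv h hψ (by
    filter_upwards [h0, hψ.near.eventually_nhds, hg.near.eventually_nhds,
      e.eventually_nhds.eventually_nhds] with y a1 a2 a3 a4 hy
    refine tendsto_nhds_unique_of_frequently_eq a2.self_of_nhds.cont tendsto_const_nhds
      (((a1 hy).and_eventually (a2.and (a3.and a4))).mono fun z ⟨b1, b2, b3, b4⟩ => ?_)
    have := mem_closure_iff_nhdsWithin_neBot.1 (hD z)
    have b5 := b1.mul (b3.cont.tendsto.mono_left nhdsWithin_le_nhds)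
    rw [zero_mul] at b5
    refine tendsto_nhds_unique (b2.cont.tendsto.mono_left nhdsWithin_le_nhds) (b5.congr' ?_)
    filter_upwards [self_mem_nhdsWithin, mem_nhdsWithin_of_mem_nhds b4] with u c1 c2
      using (c2 c1).symm)
  refine ⟨ψ', k1, ?_⟩
  filter_upwards [k2, e, h.1] with y a1 a2 a3 hy
  refine mul_left_cancel₀ (mt a3.1 (hS y hy)) ?_
  rw [← a1, a2 hy]
  ring

theorem steps (hD : Dense D) (h : LEq n S x ξ) (hS : ∀ y ∈ D, y ∉ S)
    (h0 : ∀ᶠ y in 𝓝 x, y ∈ S → ∃ᶠ z in 𝓝 y, Tendsto (fun w => v w * ξ w) (𝓝[D] z) (𝓝 0))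
    (hg : Hol n g x) (k : ℕ) (hψ : Hol n ψ x)
    (e : ∀ᶠ y in 𝓝 x, y ∈ D → ψ y = v y * (ξ y ^ k * g y)) :
    ∃ ψ', Hol n ψ' x ∧ ∀ᶠ y in 𝓝 x, y ∈ D → ψ' y = v y * g y := by
  induction k generalizing ψ with
  | zero => exact ⟨ψ, hψ, by simpa using e⟩
  | succ k ih =>
    obtain ⟨ψ', k1, k2⟩ := step hD h hS h0 ((h.hol.pow k).mul hg) hψ
      (e.mono fun y a b => by rw [a b]; ring)
    exact ih k1 k2

omit [Fintype κ] in
theorem stepS (hD : Dense D) (h : ∀ l, LEq n (G l) x (ζ l)) (hS : D ⊆ off G)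
    (h0 : ∀ l, ∀ᶠ y in 𝓝 x, y ∈ G l → ∃ᶠ z in 𝓝 y, Tendsto (fun w => v w * ζ l w) (𝓝[D] z) (𝓝 0))
    (k : κ → ℕ) (s : Finset κ) (hψ : Hol n ψ x)
    (e : ∀ᶠ y in 𝓝 x, y ∈ D → ψ y = v y * ∏ l ∈ s, ζ l y ^ k l) :
    ∃ ψ', Hol n ψ' x ∧ ∀ᶠ y in 𝓝 x, y ∈ D → ψ' y = v y := by
  classical
  induction s using Finset.induction_on generalizing ψ with
  | empty => exact ⟨ψ, hψ, by simpa using e⟩
  | insert l s hl ih =>
    obtain ⟨ψ', k1, k2⟩ := steps hD (h l) (fun y hy => hS hy l) (h0 l)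
      (Hol.prod s fun l _ => (h l).hol.pow (k l)) (k l) hψ
      (by simpa only [Finset.prod_insert hl] using e)
    exact ih k1 k2

end TbhH

open TbhH in
theorem tbh_of (hR : RIEM) : TBH := by
  intro n p V Y f κ _ G c c' m Q τ hf hG hQ hT hc hc' h
  classical
  refine ⟨h.hol, h.mer, h.chg, fun x e e' he he' ζ hζ I => ?_⟩
  let φ : V.X → ℂ := fun y => τ e' (f y) * minor f e e' I y ^ m
  let u : V.X → ℂ := fun y => if f y ∈ Q then 0 else φ y
  let N : κ → ℕ := fun l => if c l ≤ c' l then ⌊c l⌋₊ else 0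
  let v : V.X → ℂ := fun y => u y * ∏ l, ζ l y ^ N l
  have hn : ∀ y, ‖φ y‖ = ‖τ e' (f y)‖ * ‖minor f e e' I y‖ ^ m := fun y => by
    rw [norm_mul, norm_pow]
  obtain ⟨O, hO, oO, xO⟩ := eventually_nhds_iff.1 ((at_near he).and
    ((hf.cont.continuousAt.eventually (at_near he')).and (eventually_all.2 fun l => (hζ l).near)))
  have h1 : ∀ y ∈ O, f y ∉ Q → Hol n u y := fun y hy k =>
    ((hf.hol (h.hol e' _ (hO y hy).2.1 k)).mul
      ((hol_minor hf (hO y hy).1 (hO y hy).2.1 I).pow m)).congr (by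
        filter_upwards [hT.closed.isOpen_compl.mem_nhds k] with z hz using (if_neg hz).symm)
  have h2 : ∀ y ∈ O, ∀ k : κ → ℕ, BdP n id G (fun l => c l - k l)
      (fun z => u z * ∏ l, ζ l z ^ k l) y := fun y hy k => by
    obtain ⟨C, hC⟩ := h.bd y e e' (hO y hy).1 (hO y hy).2.1 ζ (hO y hy).2.2 I
    have k1 : BdP n id G c u y := bdP_of_one continuousAt_id (hO y hy).2.2 (C := |C|)
      (hC.mono fun z k1 k2 => by
        by_cases k3 : f z ∈ Q
        · simp [u, k3]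
        · simpa only [u, if_neg k3, hn, id] using (k1 k3 k2).trans (le_abs_self C))
    simpa using k1.mul_mono continuousAt_id (hO y hy).2.2 fun l => k l
  have hT' := hT.union (snc_thin_off hG)
  have hD : ∀ y, y ∉ f ⁻¹' Q ∪ (off G)ᶜ → f y ∉ Q ∧ y ∈ off G := fun y hy => by simpa using hy
  obtain ⟨ψ, k1, k2⟩ := hR n V _ O (fun y => v y * ∏ l, ζ l y ^ (⌊c l⌋₊ + 1)) hT' oO
    (fun y hy k => ((h1 y hy (hD y k).1).mul (Hol.prod _ fun l _ =>
      ((hO y hy).2.2 l).hol.pow _)).mul (Hol.prod _ fun l _ => ((hO y hy).2.2 l).hol.pow _))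
    fun y hy => by
      obtain ⟨C, hC⟩ := (h2 y hy fun l => N l + (⌊c l⌋₊ + 1)).bdd (.of_snc hG) continuousAt_id
        fun l _ => by
          have := Nat.lt_floor_add_one (c l)
          have : (0 : ℝ) ≤ N l := Nat.cast_nonneg _
          push_cast
          linarith
      refine ⟨C, hC.mono fun z k3 k4 => le_trans (le_of_eq ?_) (k3 (hD z k4).2)⟩
      simp only [v, pow_add (ζ _ z) (N _), Finset.prod_mul_distrib, mul_assoc]
  obtain ⟨ψ', k3, k4⟩ := stepS (v := v) hT'.dense hζ (fun y hy => (hD y hy).2) (fun l => by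
    filter_upwards [oO.mem_nhds xO] with y hy hl
    by_cases a : c l ≤ c' l
    · refine ((freq hG hl).and_eventually (oO.mem_nhds hy)).mono fun z ⟨⟨b1, b2⟩, b3⟩ => ?_
      refine ((tz (hO z b3).2.2 (h2 z b3 fun l' => N l' + Pi.single (M := fun _ => ℕ) l 1 l') b1
        ?_ b2).mono_left (nhdsWithin_mono _ fun w hw => (hD w hw).2)).congr fun w => ?_
      · have := Nat.lt_floor_add_one (c l)
        simp only [N, if_pos a, Pi.single_eq_same]
        push_cast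
        linarith
      · simp only [v, pow_add, Finset.prod_mul_distrib, mul_assoc]
        simp [Pi.single_apply]
    · refine ((((hc' l).resolve_left a).2 y hl).and_eventually (oO.mem_nhds hy)).mono
        fun z ⟨⟨b1, b2⟩, b3⟩ => Tendsto.mono_left ?_ nhdsWithin_le_nhds
      have b4 := (((h1 z b3 b2).mul (Hol.prod Finset.univ fun l _ =>
        ((hO z b3).2.2 l).hol.pow (N l))).mul ((hO z b3).2.2 l).hol).cont.tendsto
      rwa [((hO z b3).2.2 l).mem.2 b1, mul_zero] at b4) (fun l => ⌊c l⌋₊ + 1) Finset.univ (k1 x xO)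
    (mem_of_superset (oO.mem_nhds xO) k2)
  obtain ⟨C, -, hC⟩ := bdd_near k3.cont.norm
  have k5 : BdP n id G (fun l => N l) u x := bdP_of_one continuousAt_id hζ (C := |C|) (by
    filter_upwards [hC, k4] with y a1 a2 a3
    by_cases a4 : f y ∈ Q
    · simp [u, a4]
    · rw [a2 (by simpa using ⟨a4, a3⟩), norm_mul, norm_prod] at a1
      simpa using a1.trans (le_abs_self C))
  obtain ⟨C', hC'⟩ := k5.mono continuousAt_id (c' := c') (fun l _ => by
    by_cases a : c l ≤ c' l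
    · simpa only [N, if_pos a] using (Nat.floor_le (hc l)).trans a
    · simpa only [N, if_neg a, Nat.cast_zero] using ((hc' l).resolve_left a).1) ζ hζ
  exact ⟨C', hC'.mono fun y a1 a2 a3 => by simpa only [u, if_neg a2, hn, id] using a1 a3⟩

end Vale.Agent.P281Z.En
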