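import Vale.Agent.P281Z.En.Main
import Vale.Agent.P281Z.En.Bigp
import Vale.Agent.P281Z.En.Kap1
import Vale.Agent.P281Z.En.Kap2
import Vale.Agent.P281Z.En.Merg
import Vale.Agent.P281Z.En.Kod
import Vale.Agent.P281Z.En.Bert
import Vale.Agent.P281Z.En.Spl
import Vale.Agent.P281Z.En.Tbh
import Vale.Agent.P281Z.Pb.Ps

/-!
# P281, block END: assembly
-/

namespace Vale.Agent.P281Z.En

theorem cal : Cal := ⟨eqv, pow, add, chg, dv, hol⟩

theorem kod (hR : Rs.RES) (hS : START) (hG : GEN) : KOD :=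
  kod_of (merg_of hR) push hS hG Pb.psex

theorem bigp (hR : Rs.RES) (hS : START) (hG : GEN) : BIGP := bigp_of cal (kod hR hS hG)

theorem tbh : TBH := tbh_of riem

theorem end_all (hR : Rs.RES) (hS : START) (hG : GEN) (h3 : III) (hU : U1) : END :=
  end_of cal (bigp hR hS hG) bert spl tbh (restr_of hG) hG h3 hU

end Vale.Agent.P281Z.En
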