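import Vale.Agent.P281Z.Spec
import Vale.Agent.P281Z.Pb.Defs

/-!
# P281, block END: definitions and statements of the rows
-/

open scoped Manifold ContDiff Topology
open Set Filter
open Vale.Agent.P272.K Vale.Agent.P285.H281.FD
open Vale.Agent.P277Z (Hol)
open Vale.Agent.P277Z.Slc (lin Ind LEq Snc IsDiv)
open Vale.Agent.P277.HD (pull)

noncomputable section

namespace Vale.Agent.P281Z.En

/-- `L` and `L'` are isomorphic: the section `s` of `L` gives the section `u a a' * s a` of `L'` -/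
def Eqv (n : ℕ) {X : Type} [TopologicalSpace X] [ChartedSpace (Cm n) X] (L L' : Bd X) : Prop :=
  ∃ u : L.ι → L'.ι → X → ℂ,
    (∀ a a', ∀ x ∈ L.U a, x ∈ L'.U a' → Hol n (u a a') x ∧ u a a' x ≠ 0) ∧
    ∀ a b a' b', ∀ x ∈ L.U a, x ∈ L.U b → x ∈ L'.U a' → x ∈ L'.U b' →
      u a a' x * L.g a b x = L'.g a' b' x * u b b' x

/-- `i^* (∑ c l • G l) ≤ i'^* (∑ c' l • G' l)` -/
def Dom (p p' : ℕ) {X Y Y' : Type} [TopologicalSpace X] [TopologicalSpace Y]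
    [ChartedSpace (Cm p) Y] [TopologicalSpace Y'] [ChartedSpace (Cm p') Y'] {κ κ' : Type}
    [Fintype κ] [Fintype κ'] (i : X → Y) (G : κ → Set Y) (c : κ → ℝ) (i' : X → Y')
    (G' : κ' → Set Y') (c' : κ' → ℝ) : Prop :=
  ∀ x (ζ : κ → Y → ℂ) (ζ' : κ' → Y' → ℂ), (∀ l, LEq p (G l) (i x) (ζ l)) →
    (∀ l, LEq p' (G' l) (i' x) (ζ' l)) → ∃ C : ℝ, ∀ᶠ y in 𝓝 x, i y ∈ off G → i' y ∈ off G' →
      ∏ l, ‖ζ' l (i' y)‖ ^ c' l ≤ C * ∏ l, ‖ζ l (i y)‖ ^ c l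

/-- the divisors `G l` can be pulled back by `i` -/
structure Gd (n p : ℕ) {X Y : Type} [TopologicalSpace X] [ChartedSpace (Cm n) X]
    [TopologicalSpace Y] [ChartedSpace (Cm p) Y] {κ : Type} (i : X → Y) (G : κ → Set Y) : Prop where
  hol : HolM n p i
  snc : Snc p G
  dense : Dense (i ⁻¹' off G)

/-- `L` has sections whose ratios have rank `j` -/
def Kap0 (n : ℕ) {X : Type} [TopologicalSpace X] [ChartedSpace (Cm n) X] (L : Bd X) (j : ℕ) :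
    Prop :=
  ∃ s : Fin (j + 1) → L.ι → X → ℂ, (∀ b, IsSec n L (s b)) ∧ Rk n univ L s

/-- a statement for all maps and all divisors -/
def ForG (P : ∀ (n p : ℕ) (V : Mf n) (W : Mf p) (κ : Type) [Fintype κ],
    (V.X → W.X) → (κ → Set W.X) → Prop) : Prop :=
  ∀ (n p : ℕ) (V : Mf n) (W : Mf p) (κ : Type) [Fintype κ] (i : V.X → W.X) (G : κ → Set W.X),
    Gd n p i G → P n p V W κ i G

/-! ### the calculus of `KapL` -/

/-- **RIEM**: the extension theorem of Riemann -/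
def RIEM : Prop := ∀ (n : ℕ) (V : Mf n) (T O : Set V.X) (φ : V.X → ℂ), Thin n T → IsOpen O →
  (∀ x ∈ O, x ∉ T → Hol n φ x) → (∀ x ∈ O, ∃ C : ℝ, ∀ᶠ y in 𝓝 x, y ∉ T → ‖φ y‖ ≤ C) →
  ∃ ψ, (∀ x ∈ O, Hol n ψ x) ∧ ∀ x ∈ O, x ∉ T → ψ x = φ x

/-- **EQV**: isomorphic line bundles -/
def EQV : Prop := ForG fun n p V _ κ _ i G => ∀ (L L' : Bd V.X) (c : κ → ℝ) (j : ℕ),
  IsLB n L → IsLB n L' → Eqv n L L' → KapL n p i L G c j → KapL n p i L' G c j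

/-- **POW**: multiples -/
def POW : Prop := ForG fun n p V _ κ _ i G => ∀ (L : Bd V.X) (c : κ → ℝ) (j k : ℕ),
  IsLB n L → 0 < k → (KapL n p i L G c j ↔ KapL n p i (L.pow k) G (fun l => k * c l) j)

/-- **ADD**: adding an effective divisor -/
def ADD : Prop := ForG fun n p V _ κ _ i G => ∀ (L L' : Bd V.X) (c c' : κ → ℝ) (j : ℕ),
  ConnectedSpace V.X → IsLB n L → IsLB n L' → KapL n p i L G c j → KapL n p i L' G c' 0 →
  KapL n p i (L.mul L') G (fun l => c l + c' l) j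

/-- **CHG**: a larger divisor -/
def CHG : Prop := ForG fun n p V _ κ _ i G => ∀ (p' : ℕ) (W' : Mf p') (κ' : Type) [Fintype κ']
  (i' : V.X → W'.X) (G' : κ' → Set W'.X) (L : Bd V.X) (c : κ → ℝ) (c' : κ' → ℝ) (j : ℕ),
  Gd n p' i' G' → IsLB n L → Dom p p' i G c i' G' c' → KapL n p i L G c j → KapL n p' i' L G' c' j

/-- **DV**: the monomials in the canonical sections -/
def DV : Prop := ForG fun n p V W κ _ i G => ∀ (α : Type) [Fintype α] [DecidableEq κ] (e : α → κ)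
  (O : α → Bd W.X) (σ : ∀ a, (O a).ι → W.X → ℂ) (z : α → ℤ), Nonempty V.X →
  (∀ a, IsDiv p (G (e a)) (O a) (σ a)) →
  KapL n p i (pull i (lin O z)) G (fun l => -∑ a with e a = l, (z a : ℝ)) 0

/-- **HOL**: holomorphic sections -/
def HOL : Prop := ForG fun n p V _ _ _ i G => ∀ (L : Bd V.X) (j : ℕ), IsLB n L →
  (KapL n p i L G (fun _ => 0) j ↔ ∃ m, 0 < m ∧ Kap0 n (L.pow m) j)

/-! ### big line bundles -/

/-- **MERG**: the base locus of a linear system can be resolved -/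
def MERG : Prop := ∀ (n r : ℕ) (V : Mf n) (L : Bd V.X) (s : Fin (r + 1) → L.ι → V.X → ℂ) (S : PS r),
  ConnectedSpace V.X → IsLB n L → (∀ b, IsSec n L (s b)) → (∃ b a, ∃ x ∈ L.U a, s b a x ≠ 0) →
  ∃ (V' : Mf n) (π : V'.X → V.X) (B : Set V.X) (g : V'.X → S.P.X) (ε : L.ι → S.H.ι → V'.X → ℂ),
    Modif n π B ∧ HolM n r g ∧ (V.Kah → V'.Kah) ∧ (V.Prj → V'.Prj) ∧
    ∀ a h y, π y ∈ L.U a → g y ∈ S.H.U h → Hol n (ε a h) y ∧ (π y ∉ B → ε a h y ≠ 0) ∧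
      (∀ b, s b a (π y) = ε a h y * S.x h (g y) b) ∧ ∀ a' h', π y ∈ L.U a' → g y ∈ S.H.U h' →
        ε a h y * S.H.g h h' (g y) = L.g a a' (π y) * ε a' h' y

/-- **PUSH**: sections descend along a modification -/
def PUSH : Prop := ∀ (n : ℕ) (V V' : Mf n) (π : V'.X → V.X) (B : Set V.X) (L : Bd V.X)
  (t : (pull π L).ι → V'.X → ℂ), Modif n π B → IsLB n L → IsSec n (pull π L) t →
  ∃ s, IsSec n L s ∧ ∀ a y, π y ∈ L.U a → s a (π y) = t a y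

/-- **KOD**: the lemma of Kodaira -/
def KOD : Prop := ∀ (n : ℕ) (V : Mf n) (L L' : Bd V.X), ConnectedSpace V.X → IsLB n L →
  IsLB n L' → Kap0 n L n → ∃ j, Kap0 n ((L.pow j).mul L') 0

/-- **BIGP**: bigness is an open condition -/
def BIGP : Prop := ∀ (n : ℕ) (V : Mf n) (L L' : Bd V.X) (κ : Type) [Fintype κ] (G : κ → Set V.X)
  (c : κ → ℝ), ConnectedSpace V.X → IsLB n L → IsLB n L' → Snc n G → (∀ l, ∃ r : ℚ, c l = r) →
  KapL n n id L G c n → ∃ j₀ : ℕ, ∀ j ≥ j₀,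
    KapL n n id ((L.pow j).mul L') G (fun l => j * c l - 1) n

/-! ### divisors -/

/-- **BERT**: the theorem of Bertini -/
def BERT : Prop := ∀ (n : ℕ) (V : Mf n) (H : Bd V.X) (κ : Type) [Fintype κ] (G : κ → Set V.X),
  IsLB n H → Bpf n H → Snc n G → ∃ (Δ : Set V.X) (σ : H.ι → V.X → ℂ), IsDiv n Δ H σ ∧
    Snc n fun o : Option κ => o.elim Δ G

/-- **SPL**: the components over `Q`, and the other components -/
def SPL : Prop := ∀ (n p : ℕ) (V : Mf n) (Y : Mf p) (f : V.X → Y.X) (κ : Type) [Fintype κ]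
  (G : κ → Set V.X) (Q : Set Y.X), HolM n p f → Snc n G → An p Q → ∃ Gv Gh : κ → Set V.X,
    Snc n (Sum.elim Gv Gh) ∧ off (Sum.elim Gv Gh) = off G ∧ (∀ l, f '' Gv l ⊆ Q) ∧
    (∀ l, ∀ x ∈ Gh l, ∃ᶠ y in 𝓝 x, y ∈ Gh l ∧ f y ∉ Q) ∧ ∀ c : κ → ℝ,
      Dom n n id G c id (Sum.elim Gv Gh) (Sum.elim c c) ∧
      Dom n n id (Sum.elim Gv Gh) (Sum.elim c c) id G c

/-- **TBH**: no poles along the components which are not over `Q` -/
def TBH : Prop := ∀ (n p : ℕ) (V : Mf n) (Y : Mf p) (f : V.X → Y.X) (κ : Type) [Fintype κ]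
  (G : κ → Set V.X) (c c' : κ → ℝ) (m : ℕ) (Q : Set Y.X) (τ : Chart p Y.X → Y.X → ℂ),
  HolM n p f → Snc n G → Thin p Q → Thin n (f ⁻¹' Q) → (∀ l, 0 ≤ c l) →
  (∀ l, c l ≤ c' l ∨ (0 ≤ c' l ∧ ∀ x ∈ G l, ∃ᶠ y in 𝓝 x, y ∈ G l ∧ f y ∉ Q)) →
  TB n p f G c m Q τ → TB n p f G c' m Q τ

/-- **TRV**: the divisors on a regular fibre -/
def TRV : Prop := ∀ (n p d : ℕ) (V : Mf n) (Y : Mf p) (F : Mf d) (f : V.X → Y.X) (κ : Type)
  [Fintype κ] (G : κ → Set V.X) (y : Y.X) (i : F.X → V.X), n = p + d → HolM n p f → Snc n G →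
  RegAt n p f G y → Emb d n i (f ⁻¹' {y}) → (Snc d fun l => i ⁻¹' G l) ∧
    ∀ x l ζ, LEq n (G l) (i x) ζ → LEq d (i ⁻¹' G l) x fun z => ζ (i z)

/-- **RESTR**: pluricanonical forms restrict to the general fibres -/
def RESTR : Prop := ∀ (w r : ℕ) (W : Mf w) (Z : Mf r) (γ : W.X → Z.X) (κ : Type) [Fintype κ]
  (G : κ → Set W.X) (c : κ → ℝ), HolM w r γ → ConnectedSpace W.X → Function.Surjective γ →
  Snc w G → KapL w w id (Bd.can w W.X) G c 0 →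
  ∃ d, Oft w r γ d fun F i => KapL d w i (Bd.can d F.X) G c 0

end Vale.Agent.P281Z.En
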