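import Vale.Agent.P281Z.En.Eqv

/-!
# P281, block END: comparison of divisors
-/

open scoped Manifold ContDiff Topology
open Set Filter
open Vale.Agent.P272.K Vale.Agent.P285.H281.FD
open Vale.Agent.P277Z (Hol)
open Vale.Agent.P277Z.Slc (lin Ind LEq Snc IsDiv)
open Vale.Agent.P277.HD (pull)

noncomputable section

namespace Vale.Agent.P281Z.En

variable {p p' : ℕ} {X Y Y' : Type} [TopologicalSpace X] [TopologicalSpace Y]
  [ChartedSpace (Cm p) Y] [TopologicalSpace Y'] [ChartedSpace (Cm p') Y'] {κ κ' : Type}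
  [Fintype κ] [Fintype κ'] {i : X → Y} {G : κ → Set Y} {c : κ → ℝ} {i' : X → Y'}
  {G' : κ' → Set Y'} {c' : κ' → ℝ}

theorem Dom.pull {X' : Type} [TopologicalSpace X'] {j : X' → X} (h : Dom p p' i G c i' G' c')
    (hj : Continuous j) : Dom p p' (fun x => i (j x)) G c (fun x => i' (j x)) G' c' :=
  fun x ζ ζ' k k' => (h (j x) ζ ζ' k k').imp fun _ a => hj.continuousAt.eventually a

variable [IsManifold 𝓘(ℂ, Cm p) ω Y] [IsManifold 𝓘(ℂ, Cm p') ω Y']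

theorem wt_cmp {y : Y} {ζ ξ : κ → Y → ℂ} (h : ∀ l, LEq p (G l) y (ζ l))
    (h' : ∀ l, LEq p (G l) y (ξ l)) (c : κ → ℝ) :
    ∃ C : ℝ, 0 < C ∧ ∀ᶠ z in 𝓝 y, ∏ l, ‖ξ l z‖ ^ c l ≤ C * ∏ l, ‖ζ l z‖ ^ c l := by
  choose w h1 h2 h3 using fun l => leq_unit (h l) (h' l)
  obtain ⟨C, h5, h6⟩ := bdd_near (f := fun z => ∏ l, ‖w l z‖ ^ c l) (t := y)
    (tendsto_finsetProd _ fun l _ => (h1 l).continuousAt.norm.rpow_const
      (Or.inl (norm_ne_zero_iff.2 (h2 l))))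
  refine ⟨C, h5, ?_⟩
  filter_upwards [h6, eventually_all.2 h3] with z k2 k3
  have k5 : ∏ l, ‖ξ l z‖ ^ c l = (∏ l, ‖w l z‖ ^ c l) * ∏ l, ‖ζ l z‖ ^ c l := by
    rw [← Finset.prod_mul_distrib]
    exact Finset.prod_congr rfl fun l _ => by
      rw [k3 l, norm_mul, Real.mul_rpow (norm_nonneg _) (norm_nonneg _)]
  rw [k5]
  exact mul_le_mul_of_nonneg_right k2 (wt_nonneg _ _ _)

/-- one choice of the local equations is enough -/
theorem dom_of_ex (hi : Continuous i) (hi' : Continuous i')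
    (h : ∀ x, ∃ (ζ : κ → Y → ℂ) (ζ' : κ' → Y' → ℂ) (C : ℝ), (∀ l, LEq p (G l) (i x) (ζ l)) ∧
      (∀ l, LEq p' (G' l) (i' x) (ζ' l)) ∧ ∀ᶠ y in 𝓝 x, i y ∈ off G → i' y ∈ off G' →
        ∏ l, ‖ζ' l (i' y)‖ ^ c' l ≤ C * ∏ l, ‖ζ l (i y)‖ ^ c l) : Dom p p' i G c i' G' c' := by
  intro x ξ ξ' k k'
  obtain ⟨ζ, ζ', C, h1, h2, h3⟩ := h x
  obtain ⟨C1, a1, a2⟩ := wt_cmp h2 k' c'
  obtain ⟨C2, b1, b2⟩ := wt_cmp k h1 c
  refine ⟨C1 * (|C| * C2), ?_⟩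
  filter_upwards [h3, hi'.continuousAt.eventually a2, hi.continuousAt.eventually b2]
    with y d1 d2 d3 d4 d5
  rw [mul_assoc, mul_assoc]
  exact d2.trans (mul_le_mul_of_nonneg_left ((d1 d4 d5).trans ((mul_le_mul_of_nonneg_right
    (le_abs_self C) (wt_nonneg _ _ _)).trans (mul_le_mul_of_nonneg_left d3 (abs_nonneg C)))) a1.le)

/-- the same weights -/
theorem dom_of_eq (hi : Continuous i) (hi' : Continuous i')
    (h : ∀ x, ∃ (ζ : κ → Y → ℂ) (ζ' : κ' → Y' → ℂ), (∀ l, LEq p (G l) (i x) (ζ l)) ∧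
      (∀ l, LEq p' (G' l) (i' x) (ζ' l)) ∧ ∀ᶠ y in 𝓝 x,
        ∏ l, ‖ζ' l (i' y)‖ ^ c' l = ∏ l, ‖ζ l (i y)‖ ^ c l) :
    Dom p p' i G c i' G' c' ∧ Dom p' p i' G' c' i G c :=
  ⟨dom_of_ex hi hi' fun x => let ⟨ζ, ζ', a, b, k⟩ := h x
      ⟨ζ, ζ', 1, a, b, k.mono fun _ e _ _ => by rw [e, one_mul]⟩,
    dom_of_ex hi' hi fun x => let ⟨ζ, ζ', a, b, k⟩ := h x
      ⟨ζ', ζ, 1, b, a, k.mono fun _ e _ _ => by rw [e, one_mul]⟩⟩

theorem dom_tr {j : Y' → Y} (hj : Continuous j) (hG : Snc p G)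
    (h : ∀ x l ζ, LEq p (G l) (j x) ζ → LEq p' (j ⁻¹' G l) x fun z => ζ (j z)) (c : κ → ℝ) :
    Dom p p' j G c id (fun l => j ⁻¹' G l) c ∧ Dom p' p id (fun l => j ⁻¹' G l) c j G c :=
  dom_of_eq hj continuous_id fun x => let ⟨ζ, k, _⟩ := hG (j x)
    ⟨ζ, _, k, fun l => h x l _ (k l), .of_forall fun _ => rfl⟩

theorem dom_opt {Δ : Set Y} (hi : Continuous i) (hG : Snc p fun o : Option κ => o.elim Δ G)
    (c : κ → ℝ) : Dom p p i G c i (fun o : Option κ => o.elim Δ G) (fun o => o.elim 0 c) ∧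
      Dom p p i (fun o : Option κ => o.elim Δ G) (fun o => o.elim 0 c) i G c :=
  dom_of_eq hi hi fun x => let ⟨ζ, k, _⟩ := hG (i x)
    ⟨fun l => ζ (some l), ζ, fun l => k (some l), k, .of_forall fun _ => by
      simp [Fintype.prod_option]⟩

omit [IsManifold 𝓘(ℂ, Cm p) ω Y] in
theorem tb_dom {n : ℕ} {Z : Type} [TopologicalSpace Z] [ChartedSpace (Cm n) Z] {f : Z → Y}
    {G : κ → Set Z} {G' : κ' → Set Z} {m : ℕ} {Q : Set Y} {τ : Chart p Y → Y → ℂ}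
    (h : TB n p f G c m Q τ) (hG : Snc n G) (hs : off G' ⊆ off G)
    (hd : Dom n n id G c id G' c') : TB n p f G' c' m Q τ := by
  refine ⟨h.hol, h.mer, h.chg, fun x e e' he he' ζ' k' I => ?_⟩
  obtain ⟨ζ, k, -⟩ := hG x
  obtain ⟨C, h1⟩ := h.bd x e e' he he' ζ k I
  obtain ⟨C', h2⟩ := hd x ζ ζ' k k'
  refine ⟨|C'| * C, ?_⟩
  filter_upwards [h1, h2] with y a b d1 d2
  refine (mul_le_mul_of_nonneg_left ((b (hs d2) d2).trans (mul_le_mul_of_nonneg_right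
    (le_abs_self C') (wt_nonneg _ _ _))) (by positivity)).trans ?_
  rw [mul_left_comm]
  exact mul_le_mul_of_nonneg_left (a d1 (hs d2)) (abs_nonneg _)

end Vale.Agent.P281Z.En
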