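import Vale.Agent.P281Z.En.Sk
import Vale.Agent.P281Z.Sc.Bd

/-!
# P281, block END: isomorphisms of line bundles, normal forms
-/

open scoped Manifold ContDiff Topology
open Set Filter
open Vale.Agent.P272.K Vale.Agent.P285.H281.FD
open Vale.Agent.P277Z (Hol)
open Vale.Agent.P277Z.Slc (lin Ind LEq Snc IsDiv)
open Vale.Agent.P277.HD (pull)

noncomputable section

namespace Vale.Agent.P281Z.En

section eqv

variable {n : ℕ} {X : Type} [TopologicalSpace X] [ChartedSpace (Cm n) X] {L L' : Bd X}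

/-- a refinement of the covering -/
theorem Eqv.of_ref (hL : IsLB n L) (ρ : L'.ι → L.ι) (hU : ∀ a, ∀ x ∈ L'.U a, x ∈ L.U (ρ a))
    (hg : ∀ a b, ∀ x ∈ L'.U a, x ∈ L'.U b → L'.g a b x = L.g (ρ a) (ρ b) x) : Eqv n L L' :=
  ⟨fun a a' => L.g (ρ a') a, fun _ a' x h h' => ⟨lb_hol hL (hU a' x h') h,
    hL.ne_zero _ _ x (hU a' x h') h⟩, fun a b a' b' x h1 h2 h3 h4 => by
      rw [hg a' b' x h3 h4, hL.cocycle _ _ _ x (hU a' x h3) h1 h2,
        hL.cocycle _ _ _ x (hU a' x h3) (hU b' x h4) h2]⟩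

theorem Eqv.symm (h : Eqv n L L') : Eqv n L' L := by
  obtain ⟨u, h1, h2⟩ := h
  refine ⟨fun a' a x => (u a a' x)⁻¹, fun a' a x k k' => ⟨fun e he =>
    ((h1 a a' x k' k).1 e he).inv (by rw [e.left_inv he.2]; exact (h1 a a' x k' k).2),
    inv_ne_zero (h1 a a' x k' k).2⟩, fun a' b' a b x k1 k2 k3 k4 => ?_⟩
  have e1 := (h1 a a' x k3 k1).2
  have e2 := (h1 b b' x k4 k2).2
  have := h2 a b a' b' x k3 k4 k1 k2
  field_simp
  linear_combination -this

end eqv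

section kap

variable {n p : ℕ} {V : Mf n} {W : Mf p} {κ : Type} [Fintype κ] {i : V.X → W.X}
  {G : κ → Set W.X} {c c' : κ → ℝ} {j : ℕ} {L : Bd V.X} {α : Type} [Fintype α] {B : α → Bd V.X}
  {v v' : α → ℤ}

theorem kl_mono (hi : Continuous i) (h : KapL n p i L G c j) (hc : ∀ l, c l ≤ c' l) :
    KapL n p i L G c' j :=
  let ⟨m, h1, s, h2, h3⟩ := h
  ⟨m, h1, s, fun b => (h2 b).mono hi fun l =>
    mul_le_mul_of_nonneg_left (hc l) (Nat.cast_nonneg m), h3⟩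

theorem kl_cng (hi : Continuous i) (h : KapL n p i (lin B v) G c j) (hv : v = v')
    (hc : ∀ l, c l ≤ c' l) : KapL n p i (lin B v') G c' j := hv ▸ kl_mono hi h hc

theorem kl_zero (h : KapL n p i L G c j) : KapL n p i L G c 0 :=
  let ⟨m, h1, s, h2, x, h3, a, h4, h5, _⟩ := h
  ⟨m, h1, fun _ => s 0, fun _ => h2 0, x, h3, a, h4, h5, fun b => b.elim0,
    fun _ _ => linearIndependent_empty_type⟩

theorem kl_ref (hE : EQV) (hG : Gd n p i G) (hB : ∀ a, IsLB n (B a)) (hL : IsLB n L)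
    (ρ : (∀ a, (B a).ι) → L.ι) (hU : ∀ a x, (∀ k, x ∈ (B k).U (a k)) → x ∈ L.U (ρ a))
    (hg : ∀ a b x, (∀ k, x ∈ (B k).U (a k)) → (∀ k, x ∈ (B k).U (b k)) →
      ∏ k, (B k).g (a k) (b k) x ^ v k = L.g (ρ a) (ρ b) x) :
    KapL n p i L G c j ↔ KapL n p i (lin B v) G c j :=
  ⟨hE n p V W κ i G hG _ _ c j hL (lb_lin hB v) (.of_ref hL ρ hU hg),
    hE n p V W κ i G hG _ _ c j (lb_lin hB v) hL (Eqv.of_ref (L' := lin B v) hL ρ hU hg).symm⟩

theorem zp_add {t : α → ℂ} (h : ∀ k, t k ≠ 0) (v v' : α → ℤ) :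
    ∏ k, t k ^ (v k + v' k) = (∏ k, t k ^ v k) * ∏ k, t k ^ v' k := by
  rw [← Finset.prod_mul_distrib]
  exact Finset.prod_congr rfl fun k _ => zpow_add₀ (h k) _ _

theorem zp_pow (t : α → ℂ) (v : α → ℤ) (m : ℕ) :
    ∏ k, t k ^ (m * v k) = (∏ k, t k ^ v k) ^ m := by
  rw [← Finset.prod_pow]
  exact Finset.prod_congr rfl fun _ _ => by rw [mul_comm, zpow_mul, zpow_natCast]

theorem kl_add (hE : EQV) (hA : ADD) (hG : Gd n p i G) (hV : ConnectedSpace V.X)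
    (hB : ∀ a, IsLB n (B a)) (h : KapL n p i (lin B v) G c j) (h' : KapL n p i (lin B v') G c' 0) :
    KapL n p i (lin B fun a => v a + v' a) G (fun l => c l + c' l) j :=
  (kl_ref (v := fun a => v a + v' a) hE hG hB (lb_mul (lb_lin hB v) (lb_lin hB v'))
    (fun a => (a, a)) (fun _ _ k => ⟨k, k⟩) fun _ _ x k k' =>
      zp_add (fun l => (hB l).ne_zero _ _ x (k l) (k' l)) v v').1
    (hA n p V W κ i G hG _ _ c c' j hV (lb_lin hB v) (lb_lin hB v') h h')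

theorem kl_pow (hE : EQV) (hP : POW) (hG : Gd n p i G) (hB : ∀ a, IsLB n (B a)) {k : ℕ}
    (hk : 0 < k) : KapL n p i (lin B v) G c j ↔
      KapL n p i (lin B fun a => k * v a) G (fun l => k * c l) j :=
  (hP n p V W κ i G hG _ c j k (lb_lin hB v) hk).trans
    (kl_ref (v := fun a => k * v a) hE hG hB (lb_pow (lb_lin hB v) k) (fun a => a)
      (fun _ _ k => k) fun _ _ _ _ _ => zp_pow _ v k)

theorem kl_pow_mul (hE : EQV) (hG : Gd n p i G) (hB : ∀ a, IsLB n (B a)) (k : ℕ) :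
    KapL n p i (((lin B v).pow k).mul (lin B v')) G c j ↔
      KapL n p i (lin B fun a => k * v a + v' a) G c j :=
  kl_ref (v := fun a => k * v a + v' a) hE hG hB
    (lb_mul (lb_pow (lb_lin hB v) k) (lb_lin hB v')) (fun a => (a, a)) (fun _ _ k => ⟨k, k⟩)
    fun _ _ x h h' => (zp_add (fun l => (hB l).ne_zero _ _ x (h l) (h' l)) _ v').trans
      (congrArg (· * _) (zp_pow _ v k))

end kap

end Vale.Agent.P281Z.En
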