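import Vale.Agent.P281Z.En.Dom
import Vale.Agent.P281Z.Sc.Pic
import Vale.Agent.P281Z.Mf.Fib

/-!
# P281, block END: the calculus of `KapL` in the Picard group
-/

open scoped Manifold ContDiff Topology
open Set Filter
open Vale.Agent.P272.K Vale.Agent.P285.H281.FD
open Vale.Agent.P277Z (Hol)
open Vale.Agent.P277Z.Slc (lin Ind LEq Snc IsDiv)
open Vale.Agent.P277.HD (pull)

noncomputable section

namespace Vale.Agent.P281Z.En

/-- the rows of the calculus -/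
structure Cal : Prop where
  eqv : EQV
  pow : POW
  add : ADD
  chg : CHG
  dv : DV
  hol : HOL

/-- `κ(V, D + i^* (∑ c l • G l)) ≥ j` -/
def KP {n : ℕ} (p : ℕ) {V : Mf n} {W : Mf p} {κ : Type} [Fintype κ] (i : V.X → W.X)
    (D : Pic n V.X) (G : κ → Set W.X) (c : κ → ℝ) (j : ℕ) : Prop :=
  ∃ L, IsLB n L ∧ cls n L = D ∧ KapL n p i L G c j

variable {n p : ℕ} {V : Mf n} {W : Mf p} {κ : Type} [Fintype κ] {i : V.X → W.X}
  {G : κ → Set W.X} {c c' : κ → ℝ} {j : ℕ} {L L' : Bd V.X} {D D' : Pic n V.X}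

theorem eqv_of_cls (hL : IsLB n L) (hL' : IsLB n L') (h : cls n L = cls n L') : Eqv n L L' :=
  let ⟨t, k⟩ := (cls_eq hL' hL).1 h.symm
  ⟨fun a a' => t a' a, fun _ _ x h h' => ⟨k.hol _ _ x h' h, k.ne _ _ x h' h⟩,
    fun _ _ _ _ x h1 h2 h3 h4 => k.chg _ _ _ _ x h3 h4 h1 h2⟩

theorem KP.of (hL : IsLB n L) (h : KapL n p i L G c j) : KP p i (cls n L) G c j := ⟨L, hL, rfl, h⟩

theorem KP.to (C : Cal) (hG : Gd n p i G) (h : KP p i D G c j) (hL : IsLB n L)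
    (e : D = cls n L) : KapL n p i L G c j :=
  let ⟨L', a, b, k⟩ := h
  C.eqv n p V W κ i G hG L' L c j a hL (eqv_of_cls a hL (b.trans e)) k

theorem KP.cng (hG : Gd n p i G) (h : KP p i D G c j) (e : D = D') (hc : ∀ l, c l ≤ c' l) :
    KP p i D' G c' j :=
  let ⟨L, a, b, k⟩ := h
  ⟨L, a, b.trans e, kl_mono hG.hol.cont k hc⟩

theorem KP.zero (h : KP p i D G c j) : KP p i D G c 0 :=
  let ⟨L, a, b, k⟩ := h
  ⟨L, a, b, kl_zero k⟩

theorem KP.add (C : Cal) (hG : Gd n p i G) (hV : ConnectedSpace V.X) (h : KP p i D G c j)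
    (h' : KP p i D' G c' 0) : KP p i (D + D') G (fun l => c l + c' l) j :=
  let ⟨L, a, b, k⟩ := h
  let ⟨L', a', b', k'⟩ := h'
  ⟨_, lb_mul a a', by rw [cls_mul a a', b, b'], C.add n p V W κ i G hG L L' c c' j hV a a' k k'⟩

theorem KP.pow (C : Cal) (hG : Gd n p i G) (h : KP p i D G c j) {k : ℕ} (hk : 0 < k) :
    KP p i (k • D) G (fun l => k * c l) j :=
  let ⟨L, a, b, h⟩ := h
  ⟨_, lb_pow a k, by rw [cls_pow a, b], (C.pow n p V W κ i G hG L c j k a hk).1 h⟩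

theorem KP.root (C : Cal) (hG : Gd n p i G) (hL : IsLB n L) {k : ℕ} (hk : 0 < k)
    (h : KP p i (k • cls n L) G (fun l => k * c l) j) : KapL n p i L G c j :=
  (C.pow n p V W κ i G hG L c j k hL hk).2 (h.to C hG (lb_pow hL k) (cls_pow hL k).symm)

theorem KP.chg (C : Cal) (hG : Gd n p i G) (h : KP p i D G c j) {p' : ℕ} {W' : Mf p'} {κ' : Type}
    [Fintype κ'] {i' : V.X → W'.X} {G' : κ' → Set W'.X} {c' : κ' → ℝ} (hG' : Gd n p' i' G')
    (hd : Dom p p' i G c i' G' c') : KP p' i' D G' c' j :=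
  let ⟨L, a, b, k⟩ := h
  ⟨L, a, b, C.chg n p V W κ i G hG p' W' κ' i' G' L c c' j hG' a hd k⟩

theorem kp_sec (C : Cal) (hG : Gd n p i G) (hL : IsLB n L) (h : Kap0 n L j) :
    KP p i (cls n L) G (fun _ => 0) j := by
  refine .of hL ((C.hol n p V W κ i G hG L j hL).2 ⟨1, one_pos, ?_⟩)
  obtain ⟨s, h1, h2⟩ := h
  exact ⟨s, fun b => ⟨(h1 b).holo, fun a a' x k k' => by
    rw [(h1 b).change a a' x k k']; exact congrArg (· * _) (pow_one _).symm⟩, h2⟩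

theorem kap0_zero {s : L.ι → V.X → ℂ} (hL : IsLB n L) (hs : IsSec n L s) {x : V.X}
    (hx : NZ L s x) : Kap0 n L 0 :=
  let ⟨a, ha⟩ := hL.cover x
  ⟨fun _ => s, fun _ => hs, x, trivial, a, ha, hx a ha, fun b => b.elim0,
    fun _ _ => linearIndependent_empty_type⟩

theorem kp_dv (C : Cal) (hG : Gd n p i G) (hV : Nonempty V.X) [DecidableEq κ] {α : Type}
    [Fintype α] (e : α → κ) {O : α → Bd W.X} {σ : ∀ a, (O a).ι → W.X → ℂ}
    (h : ∀ a, IsDiv p (G (e a)) (O a) (σ a)) (z : α → ℤ) :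
    KP p i (∑ a, z a • cls n (pull i (O a))) G (fun l => -∑ a with e a = l, (z a : ℝ)) 0 :=
  ⟨lin (fun a => pull i (O a)) z, lb_lin (fun a => hG.hol.lb (h a).lb) z,
    cls_lin (fun a => hG.hol.lb (h a).lb) z, C.dv n p V W κ i G hG α e O σ z hV h⟩

theorem gd_id {G : κ → Set V.X} (h : Snc n G) : Gd n n id G := ⟨holM_id, h, snc_dense_off h⟩

theorem gd_fib {q : ℕ} {Y : Mf q} {f : W.X → Y.X} {y : Y.X} (h : RegAt p q f G y) (hf : HolM p q f)
    (hG : Snc p G) (hi : Emb n p i (f ⁻¹' {y})) : Gd n p i G :=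
  ⟨hi.hol, hG, snc_dense_off (h.snc hf hG hi)⟩

end Vale.Agent.P281Z.En
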