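import Vale.Agent.P281Z.En.Kp
import Vale.Agent.P281Z.Mf.Mod

/-!
# P281, block END: the generalized pair
-/

open scoped Manifold ContDiff Topology
open Set Filter
open Vale.Agent.P272.K Vale.Agent.P285.H281.FD
open Vale.Agent.P277Z (Hol)
open Vale.Agent.P277Z.Slc (lin Ind LEq Snc IsDiv isLB_can)
open Vale.Agent.P277.HD (pull)

noncomputable section

namespace Vale.Agent.P281Z.En

section split

variable {w : ℕ} {W : Mf w} {κ : Type} [Fintype κ]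

/-- the new divisors -/
def Gp (Δ : Set W.X) (Gv Gh : κ → Set W.X) : Option (κ ⊕ κ) → Set W.X :=
  fun o => o.elim Δ (Sum.elim Gv Gh)

/-- the old coefficients on the new divisors -/
def lf (c : κ → ℝ) : Option (κ ⊕ κ) → ℝ := fun o => o.elim 0 (Sum.elim c c)

/-- the relation between the old and the new divisors -/
structure Sp (G Gv Gh : κ → Set W.X) (Δ : Set W.X) : Prop where
  snc : Snc w G
  snc1 : Snc w (Sum.elim Gv Gh)
  snc2 : Snc w (Gp Δ Gv Gh)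
  off1 : off (Sum.elim Gv Gh) = off G
  dom : ∀ c : κ → ℝ, Dom w w id G c id (Sum.elim Gv Gh) (Sum.elim c c) ∧
    Dom w w id (Sum.elim Gv Gh) (Sum.elim c c) id G c

variable {G Gv Gh : κ → Set W.X} {Δ : Set W.X} {n : ℕ} {V : Mf n} {i : V.X → W.X} {D : Pic n V.X}
  {c : κ → ℝ} {j : ℕ}

omit [Fintype κ] in
theorem off_Gp : off (Gp Δ Gv Gh) ⊆ off (Sum.elim Gv Gh) := fun _ h l => h (some l)

theorem Sp.kp (S : Sp G Gv Gh Δ) (C : Cal) (h : Gd n w i (Gp Δ Gv Gh)) :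
    KP w i D G c j ↔ KP w i D (Gp Δ Gv Gh) (lf c) j :=
  have h1 : Gd n w i (Sum.elim Gv Gh) := ⟨h.hol, S.snc1, h.dense.mono (preimage_mono off_Gp)⟩
  have h0 : Gd n w i G := ⟨h.hol, S.snc, S.off1 ▸ h1.dense⟩
  ⟨fun k => (k.chg C h0 h1 ((S.dom c).1.pull h.hol.cont)).chg C h1 h
      (dom_opt h.hol.cont S.snc2 _).1,
    fun k => (k.chg C h h1 (dom_opt h.hol.cont S.snc2 _).2).chg C h1 h0
      ((S.dom c).2.pull h.hol.cont)⟩

theorem kp_delta (C : Cal) (h : Gd n w i (Gp Δ Gv Gh)) (hV : Nonempty V.X) {H : Bd W.X}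
    {σ : H.ι → W.X → ℂ} (hσ : IsDiv w Δ H σ) (z : ℤ) :
    KP w i (z • cls n (pull i H)) (Gp Δ Gv Gh) (fun o => o.elim (-(z : ℝ)) fun _ => 0) 0 := by
  classical
  refine (kp_dv C h hV (fun _ : Unit => none) (O := fun _ => H) (σ := fun _ => σ) (fun _ => hσ)
    fun _ => z).cng h (by simp) fun o => ?_
  cases o <;> simp

/-- the new coefficients -/
def dl (δ : κ → ℚ) (k D : ℕ) : Option (κ ⊕ κ) → ℚ :=
  fun o => o.elim (1 / (k * D)) (Sum.elim δ fun l => (1 - 1 / D) * δ l)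

omit [Fintype κ] in
theorem dl_bd {δ : κ → ℚ} (h : ∀ l, 0 ≤ δ l ∧ δ l ≤ 1) {k D : ℕ} (hk : 0 < k) (hD : 2 ≤ D) (o) :
    0 ≤ dl δ k D o ∧ dl δ k D o ≤ 1 ∧ (dl δ k D o = 1 → ∃ l, o = some (.inl l)) := by
  have a : (2 : ℚ) ≤ D := by exact_mod_cast hD
  have b : (1 : ℚ) ≤ k := by exact_mod_cast hk
  have a1 : 1 / (D : ℚ) ≤ 1 / 2 := one_div_le_one_div_of_le two_pos a
  have a2 : 0 < 1 / (D : ℚ) := by positivity
  rcases o with _ | l | l
  · have : 1 / ((k : ℚ) * D) ≤ 1 / 2 := one_div_le_one_div_of_le two_pos (by nlinarith)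
    exact ⟨show 0 ≤ 1 / ((k : ℚ) * D) by positivity, this.trans (by norm_num),
      fun e => absurd (e.symm.le.trans this) (by norm_num)⟩
  · exact ⟨(h l).1, (h l).2, fun _ => ⟨l, rfl⟩⟩
  · have : (1 - 1 / (D : ℚ)) * δ l < 1 := by nlinarith [h l]
    exact ⟨mul_nonneg (by linarith) (h l).1, this.le, fun e => absurd e this.ne⟩

end split

variable {w p r a : ℕ} {P : GP w p r}

theorem fib_big (C : Cal) (hB : BIGP) (hG : GEN) (hP : P.Ok a) (c₀ : ℕ) : ∃ j₀ : ℕ,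
    Oft w p P.f a fun F i => ∀ j ≥ j₀, KP w i
      (j • (P.N • cls a (Bd.can a F.X) + cls a (pull (fun x => P.γ (i x)) P.M)) +
        (cls a (pull (fun x => P.γ (i x)) P.A) - (2 * c₀) • cls a (pull (fun x => P.γ (i x)) P.M)))
      P.G (fun l => j * (P.N * P.δ l) - 1) a := by
  have hf := hP.ok.fibn.hol
  have hc := hP.ok.conn
  obtain ⟨Q, h1, h2⟩ := hG w p P.X P.Y P.f P.κ P.G hf hP.ok.snc
  refine (hP.big.mono' h1.neg fun y hy F i hi h => ?_).exists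
  have g : HolM a r fun x => P.γ (i x) := hP.hol.comp hi.hol
  have lM := g.lb hP.lbM
  have lA := g.lb hP.lbA
  have lL := lb_mul (lb_pow (isLB_can (n := a) (W := F.X)) P.N) lM
  have lL' := lb_mul lA (lb_zp lM (-(2 * c₀ : ℕ)))
  have s := (h2 y hy).snc hf hP.ok.snc hi
  have d := fun c => dom_tr hi.hol.cont hP.ok.snc
    (fun _ _ _ k => (h2 y hy).leq1 hf hP.ok.snc hi k) c
  have g1 := gd_fib (h2 y hy) hf hP.ok.snc hi
  obtain ⟨j₀, k⟩ := hB a F _ _ P.κ _ _ (hi.conn.2 (hP.ok.fibn.conn_all y)) lL lL' s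
    (fun l => ⟨P.N * P.δ l, by push_cast; rfl⟩)
    (((KP.of lL h).chg C g1 (gd_id s) (d _).1).to C (gd_id s) lL rfl)
  refine ⟨j₀, fun j hj => ((KP.of (lb_mul (lb_pow lL j) lL') (k j hj)).chg C (gd_id s) g1
    (d _).2).cng g1 ?_ fun _ => le_rfl⟩
  rw [cls_mul (lb_pow lL j) lL', cls_pow lL, cls_mul (lb_pow isLB_can _) lM, cls_pow isLB_can,
    cls_mul lA (lb_zp lM _), cls_zp lM, neg_smul, natCast_zsmul, sub_eq_add_neg]

theorem cls_H {n : ℕ} {V : Mf n} {g : V.X → P.Z.X} (hg : HolM n r g) (hP : P.Ok a) (s t : ℕ) :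
    cls n (pull g ((P.M.pow s).mul (P.A.pow t))) =
      s • cls n (pull g P.M) + t • cls n (pull g P.A) := by
  rw [← cls_pow (hg.lb hP.lbM), ← cls_pow (hg.lb hP.lbA),
    ← cls_mul (lb_pow (hg.lb hP.lbM) s) (lb_pow (hg.lb hP.lbA) t)]
  rfl

theorem end_of (C : Cal) (hB : BIGP) (hBe : BERT) (hS : SPL) (hT : TBH) (hR : RESTR) (hG : GEN)
    (h3 : III) (hU : U1) : END := by
  intro w p r a P hP k ⟨m, Q, τ, hm, hQ, hτ, hrk⟩
  have hf := hP.ok.fibn.hol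
  have hc := hP.ok.conn
  obtain ⟨N₀, c₀, θ, hN₀, hθ, z₀, hz₀⟩ := hP.theta
  obtain ⟨j₀, h1⟩ := fib_big C hB hG hP c₀
  obtain ⟨q, hq, hq'⟩ : ∃ q, j₀ ≤ q ∧ 2 * N₀ + 2 ≤ q := ⟨j₀ + (2 * N₀ + 2), by omega, by omega⟩
  obtain ⟨t, ht, hb⟩ := hP.nef q (by omega)
  obtain ⟨Gv, Gh, s1, s2, s3, s4, s5⟩ := hS w p P.X P.Y P.f P.κ P.G Q hf hP.ok.snc hQ.1
  have lH := lb_mul (lb_pow hP.lbM (q * t)) (lb_pow hP.lbA t)
  obtain ⟨Δ, σ, b1, b2⟩ := hBe w P.X (pull P.γ _) _ (Sum.elim Gv Gh) (hP.hol.lb lH)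
    (fun x => let ⟨s, k1, k2⟩ := hb (P.γ x); ⟨_, hP.hol.sec k1, k2⟩) s1
  have S : Sp P.G Gv Gh Δ := ⟨hP.ok.snc, s1, b2, s2, s5⟩
  obtain ⟨D, hD⟩ : ∃ D, D = P.N * (q + 2 * c₀) := ⟨_, rfl⟩
  obtain ⟨E, hE, hE'⟩ : ∃ E, D = E + 2 * N₀ ∧ 2 ≤ E := by
    have : q + 2 * c₀ ≤ D := hD ▸ Nat.le_mul_of_pos_left _ hP.pos
    exact ⟨D - 2 * N₀, by omega, by omega⟩
  have hd := dl_bd hP.ok.bdry ht (show 2 ≤ D by omega)
  have rD : (D : ℝ) = P.N * (q + 2 * c₀) := by exact_mod_cast hD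
  have rE : (D : ℝ) = E + 2 * N₀ := by exact_mod_cast hE
  have pD : (0 : ℝ) < D := by exact_mod_cast (show 0 < D by omega)
  have pt : (0 : ℝ) < t := by exact_mod_cast ht
  have r0 : ∀ l, (0 : ℝ) ≤ P.δ l := fun l => by exact_mod_cast (hP.ok.bdry l).1
  have r1 : ∀ l, (P.δ l : ℝ) ≤ 1 := fun l => by exact_mod_cast (hP.ok.bdry l).2
  have e0 : (t : ℝ) * D * (dl P.δ t D none : ℚ) = 1 := by
    simp only [dl, Option.elim]; push_cast; field_simp
  have e1 : ∀ l, ((dl P.δ t D (some (.inl l)) : ℚ) : ℝ) = P.δ l := fun _ => rfl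
  have e2 : ∀ l, (D : ℝ) * (dl P.δ t D (some (.inr l)) : ℚ) = D * P.δ l - P.δ l := fun l => by
    simp only [dl, Option.elim, Sum.elim_inr]; push_cast; field_simp
  obtain ⟨Q', g1, g2⟩ := hG w p P.X P.Y P.f _ _ hf S.snc2
  have gW := gd_id S.snc2
  have kap := h3 w p a ⟨P.X, P.Y, P.f, _, Gp Δ Gv Gh, dl P.δ t D⟩ hP.dim
    ⟨hc, hP.ok.fibn, S.snc2, fun o => ⟨(hd o).1, (hd o).2.1⟩⟩ hP.kahX hP.kahY
    (fun o e => let ⟨l, e'⟩ := (hd o).2.2 e; ⟨Q, hQ, e' ▸ s3 l⟩)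
    (h1.mono' g1.neg fun y hy F i hi h => by
      have gF := gd_fib (g2 y hy) hf S.snc2 hi
      have cF := hi.conn.2 (hP.ok.fibn.conn_all y)
      refine KP.root C gF isLB_can (k := t * D) (Nat.mul_pos ht (by omega))
        (((((S.kp C gF).1 (h (q + 2 * c₀) (by omega))).pow C gF ht).add C gF cF
          (kp_delta C gF inferInstance b1 (-1))).cng gF ?_ fun o => ?_)
      · rw [show pull i (pull P.γ _) = pull (fun x => P.γ (i x)) _ from rfl,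
          cls_H (hP.hol.comp hi.hol) hP, hD]
        module
      · have : ∀ l, ((q + 2 * c₀ : ℕ) : ℝ) * (P.N * P.δ l) = D * P.δ l := fun l => by
          rw [rD]; push_cast; ring
        rcases o with _ | l | l
        · simpa [lf] using e0.ge
        · simp only [lf, Option.elim, Sum.elim_inl, this, e1]; push_cast; nlinarith
        · simp only [lf, Option.elim, Sum.elim_inr, this]; push_cast
          rw [mul_assoc, e2]; nlinarith [r1 l])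
    k ⟨m, Q, τ, hm, hQ, fun b => hT w p P.X P.Y P.f _ _ (lf fun l => m * P.δ l) _ m Q _ hf S.snc2 hQ
      (hQ.pre_surj hf hP.ok.fibn.surj)
      (by rintro (_ | l | l); exacts [le_rfl, mul_nonneg m.cast_nonneg (r0 l),
        mul_nonneg m.cast_nonneg (r0 l)])
      (by
        have z : ∀ o, (0 : ℝ) ≤ m * (dl P.δ t D o : ℚ) := fun o =>
          mul_nonneg m.cast_nonneg (by exact_mod_cast (hd o).1)
        rintro (_ | l | l)
        exacts [.inl (z none), .inl le_rfl, .inr ⟨z (some (.inr l)), s4 l⟩])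
      (tb_dom (tb_dom (hτ b) S.snc s2.le (s5 _).1) s1 off_Gp (dom_opt continuous_id b2 _).1), hrk⟩
  have lK := isLB_can (n := w) (W := P.X.X)
  have lZ := hP.hol.lb (isLB_can (n := r) (W := P.Z.X))
  have lM := hP.hol.lb hP.lbM
  have lA := hP.hol.lb hP.lbA
  have l3 : ∀ b, IsLB w (![Bd.can w P.X.X, pull P.γ (Bd.can r P.Z.X), pull P.γ P.A] b) :=
    Fin.forall_fin_succ.2 ⟨lK, Fin.forall_fin_two.2 ⟨lZ, lA⟩⟩
  have l4 : ∀ b, IsLB r (![Bd.can r P.Z.X, P.M, P.A] b) :=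
    Fin.forall_fin_succ.2 ⟨isLB_can, Fin.forall_fin_two.2 ⟨hP.lbM, hP.lbA⟩⟩
  have u := KP.of (lb_lin l3 _) (hU w r P.X P.Z P.γ P.A _ _ (dl P.δ t D) hc hP.kahX hP.hol hP.surj
    hP.lbA hP.posA S.snc2 (fun o => ⟨(hd o).1, (hd o).2.1⟩)
    (hR w r P.X P.Z P.γ _ _ _ hP.hol hc hP.surj S.snc2 (kl_zero kap)) (2 * N₀) (by omega))
  obtain ⟨x₀, rfl⟩ := hP.surj z₀
  have v := kp_sec C gW (hP.hol.lb (lb_lin l4 _))
    (kap0_zero (hP.hol.lb (lb_lin l4 _)) (hP.hol.sec hθ) (x := x₀) hz₀)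
  have e3 : cls w (pull P.γ (lin ![Bd.can r P.Z.X, P.M, P.A] ![N₀, c₀, -1])) =
      N₀ • cls w (pull P.γ (Bd.can r P.Z.X)) + c₀ • cls w (pull P.γ P.M) - cls w (pull P.γ P.A) := by
    refine (cls_lin (fun b => hP.hol.lb (l4 b)) _).trans ?_
    simp [Fin.sum_univ_three, sub_eq_add_neg]
  have lL := lb_mul (lb_pow lK P.N) lM
  refine KP.root C (gd_id S.snc) lL (k := t * (q + 2 * c₀)) (Nat.mul_pos ht (by omega))
    ((S.kp C gW).2 ((((((KP.of lK kap).pow C gW (k := t * E) (Nat.mul_pos ht (by omega))).add C gW hc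
      (u.pow C gW ht)).add C gW hc (v.pow C gW (k := 2 * t) (by omega))).add C gW hc
        (kp_delta C gW inferInstance b1 1)).cng gW ?_ fun o => ?_))
  · rw [e3, cls_lin l3, show pull id (pull P.γ _) = pull P.γ _ from rfl, cls_H hP.hol hP,
      cls_mul (lb_pow lK _) lM, cls_pow lK, smul_add (t * (q + 2 * c₀)), smul_smul,
      mul_assoc t _ P.N, mul_comm _ P.N, ← hD, hE]
    simp only [Fin.sum_univ_three, Matrix.cons_val_zero, Matrix.cons_val_one, Matrix.cons_val]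
    module
  · have e4 : ∀ x : ℝ, ((t * E : ℕ) : ℝ) * x + t * (((2 * N₀ : ℕ) : ℝ) * x) +
        ((2 * t : ℕ) : ℝ) * 0 = t * (D * x) := fun x => by rw [rE]; push_cast; ring
    have e5 : ∀ l, ((t * (q + 2 * c₀) : ℕ) : ℝ) * (P.N * P.δ l) = t * (D * P.δ l) := fun l => by
      rw [rD]; push_cast; ring
    rw [e4]
    rcases o with _ | l | l
    · simp only [lf, Option.elim]; rw [← mul_assoc, e0]; simp
    · simp only [lf, Option.elim, Sum.elim_inl, e5, e1, add_zero, le_rfl]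
    · simp only [lf, Option.elim, Sum.elim_inr, e5, e2, add_zero]; nlinarith [r0 l]

end Vale.Agent.P281Z.En
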